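import Mathlib

/-!
Finite modifications of sets, with an integer offset.
-/

namespace Vale.Agent.P068

open Set

variable {Ω : Type*}

/-- `A` and `B` agree outside a finite set `K`, and `A` has `k` more elements than `B` in `K`. -/
def Off (A B : Set Ω) (k : ℤ) : Prop :=
  ∃ K : Set Ω, K.Finite ∧ A \ K = B \ K ∧ ((A ∩ K).ncard : ℤ) = (B ∩ K).ncard + k

lemma Off.refl (A : Set Ω) : Off A A 0 := ⟨∅, finite_empty, rfl, by simp⟩

lemma Off.symm {A B : Set Ω} {k : ℤ} (h : Off A B k) : Off B A (-k) := by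
  obtain ⟨K, hK, h1, h2⟩ := h
  exact ⟨K, hK, h1.symm, by omega⟩

lemma off_enlarge {A B K K' : Set Ω} {k : ℤ} (hK' : K'.Finite) (hKK : K ⊆ K')
    (h1 : A \ K = B \ K) (h2 : ((A ∩ K).ncard : ℤ) = (B ∩ K).ncard + k) :
    A \ K' = B \ K' ∧ ((A ∩ K').ncard : ℤ) = (B ∩ K').ncard + k := by
  have key : ∀ x, x ∉ K → (x ∈ A ↔ x ∈ B) := by
    intro x hx
    have := congrArg (fun S => x ∈ S) h1
    simp only [mem_sdiff, hx, not_false_eq_true, and_true, eq_iff_iff] at this
    exact this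
  have e1 : A ∩ K' = (A ∩ K) ∪ (A ∩ (K' \ K)) := by
    ext x; simp only [mem_inter_iff, mem_union, mem_sdiff]
    constructor
    · rintro ⟨a, b⟩
      by_cases hx : x ∈ K
      · exact Or.inl ⟨a, hx⟩
      · exact Or.inr ⟨a, b, hx⟩
    · rintro (⟨a, b⟩ | ⟨a, b, _⟩)
      · exact ⟨a, hKK b⟩
      · exact ⟨a, b⟩
  have e2 : B ∩ K' = (B ∩ K) ∪ (A ∩ (K' \ K)) := by
    ext x; simp only [mem_inter_iff, mem_union, mem_sdiff]
    constructor
    · rintro ⟨a, b⟩
      by_cases hx : x ∈ K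
      · exact Or.inl ⟨a, hx⟩
      · exact Or.inr ⟨(key x hx).2 a, b, hx⟩
    · rintro (⟨a, b⟩ | ⟨a, b, c⟩)
      · exact ⟨a, hKK b⟩
      · exact ⟨(key x c).1 a, b⟩
  refine ⟨?_, ?_⟩
  · ext x
    simp only [mem_sdiff]
    constructor
    · rintro ⟨a, b⟩
      exact ⟨(key x (fun h => b (hKK h))).1 a, b⟩
    · rintro ⟨a, b⟩
      exact ⟨(key x (fun h => b (hKK h))).2 a, b⟩
  · have hfK : K.Finite := hK'.subset hKK
    have d1 : Disjoint (A ∩ K) (A ∩ (K' \ K)) := by
      rw [Set.disjoint_left]; rintro x ⟨_, a⟩ ⟨_, _, b⟩; exact b a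
    have d2 : Disjoint (B ∩ K) (A ∩ (K' \ K)) := by
      rw [Set.disjoint_left]; rintro x ⟨_, a⟩ ⟨_, _, b⟩; exact b a
    have f1 : (A ∩ K).Finite := hfK.subset inter_subset_right
    have f2 : (B ∩ K).Finite := hfK.subset inter_subset_right
    have f3 : (A ∩ (K' \ K)).Finite := hK'.subset (fun x hx => hx.2.1)
    rw [e1, e2, ncard_union_eq d1 f1 f3, ncard_union_eq d2 f2 f3]
    push_cast
    omega

lemma Off.trans {A B C : Set Ω} {k l : ℤ} (h : Off A B k) (h' : Off B C l) :
    Off A C (k + l) := by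
  obtain ⟨K, hK, h1, h2⟩ := h
  obtain ⟨L, hL, h3, h4⟩ := h'
  obtain ⟨a1, a2⟩ := off_enlarge (hK.union hL) subset_union_left h1 h2
  obtain ⟨b1, b2⟩ := off_enlarge (hK.union hL) subset_union_right h3 h4
  exact ⟨K ∪ L, hK.union hL, a1.trans b1, by omega⟩

lemma Off.finite_left {A B : Set Ω} {k : ℤ} (h : Off A B k) : (A \ B).Finite := by
  obtain ⟨K, hK, h1, _⟩ := h
  refine hK.subset ?_
  rintro x ⟨hA, hB⟩
  by_contra hx
  have : x ∈ B \ K := h1 ▸ ⟨hA, hx⟩
  exact hB this.1

lemma Off.finite_right {A B : Set Ω} {k : ℤ} (h : Off A B k) : (B \ A).Finite :=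
  h.symm.finite_left

/-- Removing a finite subset. -/
lemma off_diff {A Q : Set Ω} (hQ : Q.Finite) (hQA : Q ⊆ A) : Off (A \ Q) A (-(Q.ncard : ℤ)) := by
  refine ⟨Q, hQ, ?_, ?_⟩
  · ext x; simp
  · have e1 : (A \ Q) ∩ Q = ∅ := by ext x; simp
    have e2 : A ∩ Q = Q := inter_eq_right.2 hQA
    rw [e1, e2]; simp

/-- Adding a finite disjoint set. -/
lemma off_union {A Q : Set Ω} (hQ : Q.Finite) (hQA : Disjoint A Q) :
    Off (A ∪ Q) A (Q.ncard : ℤ) := by
  refine ⟨Q, hQ, ?_, ?_⟩
  · ext x; simp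
  · have e1 : (A ∪ Q) ∩ Q = Q := by ext x; simp only [mem_inter_iff, mem_union]; tauto
    have e2 : A ∩ Q = ∅ := hQA.inter_eq
    rw [e1, e2]; simp

lemma Off.eq_of_subset {A B : Set Ω} (h : Off A B 0) (hAB : A ⊆ B) : A = B := by
  obtain ⟨K, hK, h1, h2⟩ := h
  have hf : (B ∩ K).Finite := hK.subset inter_subset_right
  have h3 : A ∩ K = B ∩ K :=
    Set.eq_of_subset_of_ncard_le (inter_subset_inter_left K hAB) (by omega) hf
  ext x
  constructor
  · exact fun h => hAB h
  · intro hx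
    by_cases hxK : x ∈ K
    · have : x ∈ A ∩ K := h3 ▸ ⟨hx, hxK⟩
      exact this.1
    · have : x ∈ A \ K := h1 ▸ ⟨hx, hxK⟩
      exact this.1

lemma Off.compl {A B : Set Ω} {k : ℤ} (h : Off A B k) : Off Aᶜ Bᶜ (-k) := by
  obtain ⟨K, hK, h1, h2⟩ := h
  refine ⟨K, hK, ?_, ?_⟩
  · ext x
    have := congrArg (fun S => x ∈ S) h1
    simp only [mem_sdiff, eq_iff_iff, mem_compl_iff] at this ⊢
    tauto
  · have f1 : (A ∩ K).Finite := hK.subset inter_subset_right
    have f2 : (B ∩ K).Finite := hK.subset inter_subset_right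
    have f3 : (Aᶜ ∩ K).Finite := hK.subset inter_subset_right
    have f4 : (Bᶜ ∩ K).Finite := hK.subset inter_subset_right
    have e1 : (A ∩ K).ncard + (Aᶜ ∩ K).ncard = K.ncard := by
      rw [← ncard_union_eq _ f1 f3]
      · congr 1; ext x; simp only [mem_union, mem_inter_iff, mem_compl_iff]; tauto
      · rw [Set.disjoint_left]; rintro x ⟨a, _⟩ ⟨b, _⟩; exact b a
    have e2 : (B ∩ K).ncard + (Bᶜ ∩ K).ncard = K.ncard := by
      rw [← ncard_union_eq _ f2 f4]
      · congr 1; ext x; simp only [mem_union, mem_inter_iff, mem_compl_iff]; tauto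
      · rw [Set.disjoint_left]; rintro x ⟨a, _⟩ ⟨b, _⟩; exact b a
    omega

lemma off_of_finite {A B : Set Ω} (h1 : (A \ B).Finite) (h2 : (B \ A).Finite) :
    Off A B ((A \ B).ncard - (B \ A).ncard) := by
  have s1 : Off (A \ (A \ B)) A (-((A \ B).ncard : ℤ)) := off_diff h1 sdiff_subset
  have s2 : Off (B \ (B \ A)) B (-((B \ A).ncard : ℤ)) := off_diff h2 sdiff_subset
  have e : A \ (A \ B) = B \ (B \ A) := by
    ext x; simp only [mem_sdiff]; tauto
  rw [e] at s1
  have := s1.symm.trans s2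
  convert this using 1
  ring

/-- Swapping one element. -/
lemma off_swap {A : Set Ω} {x y : Ω} (hx : x ∈ A) (hy : y ∉ A) :
    Off (insert y (A \ {x})) A 0 := by
  have s1 : Off (A \ {x}) A (-(({x} : Set Ω).ncard : ℤ)) :=
    off_diff (finite_singleton x) (by simpa using hx)
  have s2 : Off ((A \ {x}) ∪ {y}) (A \ {x}) ((({y} : Set Ω)).ncard : ℤ) := by
    refine off_union (finite_singleton y) ?_
    rw [Set.disjoint_singleton_right]
    exact fun h => hy h.1
  have := s2.trans s1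
  rw [ncard_singleton, ncard_singleton] at this
  rw [← union_singleton]
  simpa using this

/-- The adjustment lemma: if `X` is contained in `S` up to a finite set, then some set with
offset `0` from `S` contains `X`, or lies between `I` and `X`, or is contained in `I`. -/
lemma adjust {I X S : Set Ω} (hIX : I ⊆ X) (hfin : (X \ S).Finite) :
    ∃ B, Off B S 0 ∧ (X ⊆ B ∨ (I ⊆ B ∧ B ⊆ X) ∨ B ⊆ I) := by
  by_cases hSX : (S \ X).Finite
  · -- offset of X from S
    have hk := off_of_finite hfin hSX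
    set k : ℤ := ((X \ S).ncard : ℤ) - (S \ X).ncard with hkdef
    rcases le_or_gt k 0 with hk0 | hk0
    · -- add elements
      obtain ⟨m, hm⟩ : ∃ m : ℕ, (m : ℤ) = -k := ⟨(-k).toNat, by omega⟩
      have hle : m ≤ (S \ X).ncard := by omega
      obtain ⟨Q, hQ, hQm⟩ := Set.exists_subset_card_eq hle
      have hQf : Q.Finite := hSX.subset hQ
      refine ⟨X ∪ Q, ?_, Or.inl subset_union_left⟩
      have s := off_union (A := X) hQf (by
        rw [Set.disjoint_left]; intro x hx hxQ; exact (hQ hxQ).2 hx)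
      have := s.trans hk
      rw [hQm] at this
      convert this using 1
      omega
    · obtain ⟨m, hm⟩ : ∃ m : ℕ, (m : ℤ) = k := ⟨k.toNat, by omega⟩
      have hle : m ≤ (X \ S).ncard := by omega
      by_cases hb : (m : ℕ∞) ≤ (X \ I).encard
      · obtain ⟨Q, hQ, hQm⟩ := Set.exists_subset_encard_eq hb
        have hQf : Q.Finite := Set.finite_of_encard_eq_coe hQm
        have hQn : Q.ncard = m := by
          rw [Set.ncard_def, hQm]; simp
        refine ⟨X \ Q, ?_, Or.inr (Or.inl ⟨?_, sdiff_subset⟩)⟩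
        · have s := off_diff (A := X) hQf (hQ.trans sdiff_subset)
          have := s.trans hk
          rw [hQn] at this
          convert this using 1
          omega
        · intro x hx
          exact ⟨hIX hx, fun hxQ => (hQ hxQ).2 hx⟩
      · push Not at hb
        have hXm : (m : ℕ∞) ≤ X.encard := by
          have h1 : ((X \ S).ncard : ℕ∞) = (X \ S).encard := hfin.cast_ncard_eq
          calc (m : ℕ∞) ≤ ((X \ S).ncard : ℕ∞) := by exact_mod_cast hle
            _ = (X \ S).encard := h1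
            _ ≤ X.encard := Set.encard_le_encard sdiff_subset
        obtain ⟨Q, hQ1, hQ2, hQm⟩ :=
          Set.exists_superset_subset_encard_eq (s := X \ I) (t := X) sdiff_subset hb.le hXm
        have hQf : Q.Finite := Set.finite_of_encard_eq_coe hQm
        have hQn : Q.ncard = m := by
          rw [Set.ncard_def, hQm]; simp
        refine ⟨X \ Q, ?_, Or.inr (Or.inr ?_)⟩
        · have s := off_diff (A := X) hQf hQ2
          have := s.trans hk
          rw [hQn] at this
          convert this using 1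
          omega
        · rintro x ⟨hx, hxQ⟩
          by_contra hxI
          exact hxQ (hQ1 ⟨hx, hxI⟩)
  · -- S \ X infinite
    have hinf : (S \ X).Infinite := hSX
    obtain ⟨Q, hQ, hQm⟩ := hinf.exists_subset_ncard_eq (X \ S).ncard
    obtain ⟨hQf, hQn⟩ := hQm
    refine ⟨(S ∪ (X \ S)) \ Q, ?_, Or.inl ?_⟩
    · have s1 := off_union (A := S) hfin (by
        rw [Set.disjoint_left]; intro x hx hxQ; exact hxQ.2 hx)
      have s2 := off_diff (A := S ∪ (X \ S)) hQf (fun x hx => Or.inl (hQ hx).1)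
      have := s2.trans s1
      rw [hQn] at this
      convert this using 1
      ring
    · intro x hx
      refine ⟨?_, fun hxQ => (hQ hxQ).2 hx⟩
      by_cases hxS : x ∈ S
      · exact Or.inl hxS
      · exact Or.inr ⟨hx, hxS⟩

/-- The dual adjustment lemma. -/
lemma adjust' {I X S : Set Ω} (hIX : I ⊆ X) (hfin : (S \ I).Finite) :
    ∃ B, Off B S 0 ∧ (X ⊆ B ∨ (I ⊆ B ∧ B ⊆ X) ∨ B ⊆ I) := by
  have h1 : (Iᶜ \ Sᶜ).Finite := by
    have : Iᶜ \ Sᶜ = S \ I := by ext x; simp only [mem_sdiff, mem_compl_iff]; tauto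
    rw [this]; exact hfin
  obtain ⟨B, hB, h⟩ := adjust (compl_subset_compl.2 hIX) h1
  refine ⟨Bᶜ, ?_, ?_⟩
  · have := hB.compl
    simpa using this
  · rcases h with h | ⟨h, h'⟩ | h
    · right; right
      rw [compl_subset_comm] at h
      exact h
    · right; left
      exact ⟨by rwa [subset_compl_comm], by rwa [compl_subset_comm]⟩
    · left
      rwa [subset_compl_comm]

end Vale.Agent.P068
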