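import Mathlib
import Vale.Agent.Lib.P068.Off

/-!
Transfinite construction (length of a well order with countable initial segments) of a
swap-closed antichain of sets all of which are `free` in the sense of a typing.
-/

namespace Vale.Agent.P068

open Set

/-- A typing of the subsets of `Ω`: negative, free and positive sets, together with a notion of
small set which is rich enough to split countably many infinite sets. -/
structure Typing (Ω : Type) where
  N : Set Ω → Prop
  P : Set Ω → Prop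
  Fr : Set Ω → Prop
  small : Set Ω → Prop
  cover : ∀ X, N X ∨ Fr X ∨ P X
  N_Fr : ∀ X, N X → ¬ Fr X
  P_Fr : ∀ X, P X → ¬ Fr X
  N_down : ∀ X Y, X ⊆ Y → N Y → N X
  P_up : ∀ X Y, X ⊆ Y → P X → P Y
  N_fin : ∀ X Y, (X \ Y).Finite → (Y \ X).Finite → N X → N Y
  P_fin : ∀ X Y, (X \ Y).Finite → (Y \ X).Finite → P X → P Y
  Fr_small : ∀ X J, Fr X → small J → Fr (symmDiff X J)
  small_sub : ∀ J J', J' ⊆ J → small J → small J'
  split : ∀ C : Set (Set Ω), C.Countable → (∀ D ∈ C, D.Infinite) →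
    ∃ J, small J ∧ ∀ D ∈ C, (D ∩ J).Infinite ∧ (D \ J).Infinite
  interp : ∀ I X, N I → P X → I ⊆ X → ∃ B, Fr B ∧ I ⊆ B ∧ B ⊆ X
  N_empty : N ∅
  P_univ : P univ

variable {Ω : Type} (Y : Typing Ω)

/-- A countable family of free sets, pairwise infinitely different in both directions. -/
def Good (S : Set (Set Ω)) : Prop :=
  S.Countable ∧ (∀ A ∈ S, Y.Fr A) ∧ ∀ A ∈ S, ∀ B ∈ S, A ≠ B → (A \ B).Infinite

/-- The task `(I, X)` is fulfilled by the family `S`. -/
def Task (S : Set (Set Ω)) (I X : Set Ω) : Prop :=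
  ∃ A ∈ S, ∃ B, Off B A 0 ∧ (X ⊆ B ∨ (I ⊆ B ∧ B ⊆ X) ∨ B ⊆ I)

lemma Task.mono {S S' : Set (Set Ω)} {I X : Set Ω} (h : Task S I X) (hS : S ⊆ S') :
    Task S' I X := by
  obtain ⟨A, hA, h⟩ := h
  exact ⟨A, hS hA, h⟩

/-- Generic element of an interval. -/
lemma exists_generic {S : Set (Set Ω)} (hS : S.Countable) {I X B₀ : Set Ω}
    (hB : Y.Fr B₀) (hIB : I ⊆ B₀) (hBX : B₀ ⊆ X)
    (h1 : ∀ A ∈ S, (X \ A).Infinite) (h2 : ∀ A ∈ S, (A \ I).Infinite) :
    ∃ B, Y.Fr B ∧ I ⊆ B ∧ B ⊆ X ∧ ∀ A ∈ S, (B \ A).Infinite ∧ (A \ B).Infinite := by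
  classical
  set K : Set Ω := X \ I with hK
  let C : Set (Set Ω) :=
    {D | D.Infinite ∧ D ∈ (fun A => (K \ A) ∩ B₀) '' S} ∪
    {D | D.Infinite ∧ D ∈ (fun A => (K \ A) \ B₀) '' S} ∪
    {D | D.Infinite ∧ D ∈ (fun A => (K ∩ A) ∩ B₀) '' S} ∪
    {D | D.Infinite ∧ D ∈ (fun A => (K ∩ A) \ B₀) '' S}
  have hC : C.Countable := by
    refine ((Countable.union ?_ ?_).union ?_).union ?_
    all_goals exact (hS.image _).mono (fun D hD => hD.2)
  have hCi : ∀ D ∈ C, D.Infinite := by
    rintro D (((h | h) | h) | h)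
    all_goals exact h.1
  obtain ⟨J, hJ, hJC⟩ := Y.split C hC hCi
  have hm1 : ∀ A ∈ S, ((K \ A) ∩ B₀).Infinite → (K \ A) ∩ B₀ ∈ C := fun A hA h =>
    Or.inl (Or.inl (Or.inl ⟨h, A, hA, rfl⟩))
  have hm2 : ∀ A ∈ S, ((K \ A) \ B₀).Infinite → (K \ A) \ B₀ ∈ C := fun A hA h =>
    Or.inl (Or.inl (Or.inr ⟨h, A, hA, rfl⟩))
  have hm3 : ∀ A ∈ S, ((K ∩ A) ∩ B₀).Infinite → (K ∩ A) ∩ B₀ ∈ C := fun A hA h =>
    Or.inl (Or.inr ⟨h, A, hA, rfl⟩)
  have hm4 : ∀ A ∈ S, ((K ∩ A) \ B₀).Infinite → (K ∩ A) \ B₀ ∈ C := fun A hA h =>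
    Or.inr ⟨h, A, hA, rfl⟩
  have hJK : Y.small (J ∩ K) := Y.small_sub J (J ∩ K) inter_subset_left hJ
  refine ⟨symmDiff B₀ (J ∩ K), Y.Fr_small _ _ hB hJK, ?_, ?_, ?_⟩
  · intro x hx
    left
    exact ⟨hIB hx, fun h => h.2.2 hx⟩
  · rintro x (h | h)
    · exact hBX h.1
    · exact h.1.2.1
  · intro A hA
    constructor
    · by_cases hI : (I \ A).Infinite
      · refine hI.mono ?_
        rintro x ⟨hx, hxA⟩
        exact ⟨Or.inl ⟨hIB hx, fun h => h.2.2 hx⟩, hxA⟩
      · have hKA : (K \ A).Infinite := by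
          intro hfin
          apply h1 A hA
          refine ((not_infinite.1 hI).union hfin).subset ?_
          rintro x ⟨hx, hxA⟩
          by_cases hxI : x ∈ I
          · exact Or.inl ⟨hxI, hxA⟩
          · exact Or.inr ⟨⟨hx, hxI⟩, hxA⟩
        by_cases hc : ((K \ A) ∩ B₀).Infinite
        · refine ((hJC _ (hm1 A hA hc)).2).mono ?_
          rintro x ⟨⟨⟨hxK, hxA⟩, hxB⟩, hxJ⟩
          exact ⟨Or.inl ⟨hxB, fun h => hxJ h.1⟩, hxA⟩
        · have hc' : ((K \ A) \ B₀).Infinite := by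
            intro hfin
            apply hKA
            refine ((not_infinite.1 hc).union hfin).subset ?_
            intro x hx
            by_cases hxB : x ∈ B₀
            · exact Or.inl ⟨hx, hxB⟩
            · exact Or.inr ⟨hx, hxB⟩
          refine ((hJC _ (hm2 A hA hc')).1).mono ?_
          rintro x ⟨⟨⟨hxK, hxA⟩, hxB⟩, hxJ⟩
          exact ⟨Or.inr ⟨⟨hxJ, hxK⟩, hxB⟩, hxA⟩
    · by_cases hX : (A \ X).Infinite
      · refine hX.mono ?_
        rintro x ⟨hxA, hxX⟩
        refine ⟨hxA, ?_⟩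
        rintro (h | h)
        · exact hxX (hBX h.1)
        · exact hxX h.1.2.1
      · have hKA : (K ∩ A).Infinite := by
          intro hfin
          apply h2 A hA
          refine ((not_infinite.1 hX).union hfin).subset ?_
          rintro x ⟨hxA, hxI⟩
          by_cases hxX : x ∈ X
          · exact Or.inr ⟨⟨hxX, hxI⟩, hxA⟩
          · exact Or.inl ⟨hxA, hxX⟩
        by_cases hc : ((K ∩ A) ∩ B₀).Infinite
        · refine ((hJC _ (hm3 A hA hc)).1).mono ?_
          rintro x ⟨⟨⟨hxK, hxA⟩, hxB⟩, hxJ⟩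
          refine ⟨hxA, ?_⟩
          rintro (h | h)
          · exact h.2 ⟨hxJ, hxK⟩
          · exact h.2 hxB
        · have hc' : ((K ∩ A) \ B₀).Infinite := by
            intro hfin
            apply hKA
            refine ((not_infinite.1 hc).union hfin).subset ?_
            intro x hx
            by_cases hxB : x ∈ B₀
            · exact Or.inl ⟨hx, hxB⟩
            · exact Or.inr ⟨hx, hxB⟩
          refine ((hJC _ (hm4 A hA hc')).2).mono ?_
          rintro x ⟨⟨⟨hxK, hxA⟩, hxB⟩, hxJ⟩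
          refine ⟨hxA, ?_⟩
          rintro (h | h)
          · exact hxB h.1
          · exact hxJ h.1.1

lemma Good.insert {S : Set (Set Ω)} (hS : Good Y S) {B : Set Ω} (hB : Y.Fr B)
    (h : ∀ A ∈ S, (B \ A).Infinite ∧ (A \ B).Infinite) : Good Y (insert B S) := by
  refine ⟨hS.1.insert B, ?_, ?_⟩
  · rintro A (rfl | hA)
    · exact hB
    · exact hS.2.1 A hA
  · rintro A (rfl | hA) A' (rfl | hA') hne
    · exact absurd rfl hne
    · exact (h A' hA').1
    · exact (h A hA).2
    · exact hS.2.2 A hA A' hA' hne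

/-- One step of the construction. -/
lemma step {S : Set (Set Ω)} (hS : Good Y S) {I X : Set Ω} (hIX : I ⊆ X) :
    ∃ S', S ⊆ S' ∧ Good Y S' ∧ Task S' I X := by
  classical
  by_cases hT : Task S I X
  · exact ⟨S, Subset.rfl, hS, hT⟩
  have h1 : ∀ A ∈ S, (X \ A).Infinite := by
    intro A hA hfin
    obtain ⟨B, hB, h⟩ := adjust hIX hfin
    exact hT ⟨A, hA, B, hB, h⟩
  have h2 : ∀ A ∈ S, (A \ I).Infinite := by
    intro A hA hfin
    obtain ⟨B, hB, h⟩ := adjust' hIX hfin
    exact hT ⟨A, hA, B, hB, h⟩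
  have key : ∀ I' X' B₀ : Set Ω, Y.Fr B₀ → I' ⊆ B₀ → B₀ ⊆ X' →
      (∀ A ∈ S, (X' \ A).Infinite) → (∀ A ∈ S, (A \ I').Infinite) →
      (∀ B, I' ⊆ B → B ⊆ X' → (X ⊆ B ∨ (I ⊆ B ∧ B ⊆ X) ∨ B ⊆ I)) →
      ∃ S', S ⊆ S' ∧ Good Y S' ∧ Task S' I X := by
    intro I' X' B₀ hB0 hI hX g1 g2 g3
    obtain ⟨B, hB, hIB, hBX, hBA⟩ := exists_generic Y hS.1 hB0 hI hX g1 g2
    exact ⟨insert B S, subset_insert B S, hS.insert Y hB hBA,
      ⟨B, mem_insert B S, B, Off.refl B, g3 B hIB hBX⟩⟩
  by_cases hc : ∃ B₀, Y.Fr B₀ ∧ I ⊆ B₀ ∧ B₀ ⊆ X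
  · obtain ⟨B₀, hB0, hI, hX⟩ := hc
    exact key I X B₀ hB0 hI hX h1 h2 (fun B h h' => Or.inr (Or.inl ⟨h, h'⟩))
  · have hFI : ¬ Y.Fr I := fun h => hc ⟨I, h, Subset.rfl, hIX⟩
    have hFX : ¬ Y.Fr X := fun h => hc ⟨X, h, hIX, Subset.rfl⟩
    have hNP : ¬ (Y.N I ∧ Y.P X) := fun h => hc (Y.interp I X h.1 h.2 hIX)
    by_cases hNX : Y.N X
    · obtain ⟨B₀, hB0, hXB, hBu⟩ := Y.interp X univ hNX Y.P_univ (subset_univ _)
      refine key X univ B₀ hB0 hXB hBu ?_ ?_ (fun B h _ => Or.inl h)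
      · intro A hA hfin
        refine Y.P_Fr A ?_ (hS.2.1 A hA)
        exact Y.P_fin univ A hfin (Set.finite_empty.subset (fun x hx => hx.2 (mem_univ x))) Y.P_univ
      · intro A hA hfin
        refine Y.N_Fr A ?_ (hS.2.1 A hA)
        refine Y.N_down A (X ∪ A) subset_union_right ?_
        refine Y.N_fin X (X ∪ A) (Set.finite_empty.subset (fun x hx => hx.2 (Or.inl hx.1))) ?_ hNX
        refine hfin.subset ?_
        rintro x ⟨h | h, h'⟩
        · exact absurd h h'
        · exact ⟨h, h'⟩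
    · have hPX : Y.P X := by
        rcases Y.cover X with h | h | h
        · exact absurd h hNX
        · exact absurd h hFX
        · exact h
      have hPI : Y.P I := by
        rcases Y.cover I with h | h | h
        · exact absurd ⟨h, hPX⟩ hNP
        · exact absurd h hFI
        · exact h
      obtain ⟨B₀, hB0, hXB, hBu⟩ := Y.interp ∅ I Y.N_empty hPI (empty_subset _)
      refine key ∅ I B₀ hB0 hXB hBu ?_ ?_ (fun B _ h => Or.inr (Or.inr h))
      · intro A hA hfin
        refine Y.P_Fr A ?_ (hS.2.1 A hA)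
        refine Y.P_up (I ∩ A) A inter_subset_right ?_
        refine Y.P_fin I (I ∩ A) ?_ ?_ hPI
        · refine hfin.subset ?_
          rintro x ⟨h, h'⟩
          exact ⟨h, fun hA => h' ⟨h, hA⟩⟩
        · refine Set.finite_empty.subset ?_
          rintro x ⟨h, h'⟩
          exact h' h.1
      · intro A hA hfin
        refine Y.N_Fr A ?_ (hS.2.1 A hA)
        refine Y.N_fin ∅ A (by simp) ?_ Y.N_empty
        simpa using hfin

section Recursion

variable {T : Type} [LinearOrder T] [WellFoundedLT T] (task : T → Set Ω × Set Ω)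

open Classical in
/-- The stepping function. -/
noncomputable def stepFun (S : Set (Set Ω)) (I X : Set Ω) : Set (Set Ω) :=
  if h : Good Y S ∧ I ⊆ X then (step Y h.1 h.2).choose else S

lemma stepFun_subset (S : Set (Set Ω)) (I X : Set Ω) : S ⊆ stepFun Y S I X := by
  unfold stepFun
  split_ifs with h
  · exact (step Y h.1 h.2).choose_spec.1
  · exact Subset.rfl

lemma stepFun_good {S : Set (Set Ω)} (hS : Good Y S) (I X : Set Ω) : Good Y (stepFun Y S I X) := by
  unfold stepFun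
  split_ifs with h
  · exact (step Y h.1 h.2).choose_spec.2.1
  · exact hS

lemma stepFun_task {S : Set (Set Ω)} (hS : Good Y S) {I X : Set Ω} (hIX : I ⊆ X) :
    Task (stepFun Y S I X) I X := by
  unfold stepFun
  rw [dif_pos ⟨hS, hIX⟩]
  exact (step Y hS hIX).choose_spec.2.2

/-- The transfinite sequence of families. -/
noncomputable def chain : T → Set (Set Ω) :=
  WellFounded.fix (wellFounded_lt (α := T)) (fun t f =>
    stepFun Y (⋃ s, ⋃ h : s < t, f s h) (task t).1 (task t).2)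

lemma chain_eq (t : T) : chain Y task t =
    stepFun Y (⋃ s, ⋃ _ : s < t, chain Y task s) (task t).1 (task t).2 := by
  unfold chain
  rw [WellFounded.fix_eq]

lemma chain_mono {s t : T} (h : s < t) : chain Y task s ⊆ chain Y task t := by
  rw [chain_eq Y task t]
  refine Subset.trans ?_ (stepFun_subset Y _ _ _)
  intro A hA
  simp only [mem_iUnion]
  exact ⟨s, h, hA⟩

lemma chain_mono' {s t : T} (h : s ≤ t) : chain Y task s ⊆ chain Y task t := by
  rcases h.lt_or_eq with h | rfl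
  · exact chain_mono Y task h
  · exact Subset.rfl

lemma chain_good (hT : ∀ t : T, (Iio t).Countable) (t : T) : Good Y (chain Y task t) := by
  induction t using WellFoundedLT.induction with
  | ind t ih =>
    rw [chain_eq Y task t]
    apply stepFun_good
    refine ⟨?_, ?_, ?_⟩
    · have : (⋃ s, ⋃ _ : s < t, chain Y task s) = ⋃ s ∈ Iio t, chain Y task s := rfl
      rw [this]
      exact (hT t).biUnion (fun s hs => (ih s hs).1)
    · intro A hA
      simp only [mem_iUnion] at hA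
      obtain ⟨s, hs, hA⟩ := hA
      exact (ih s hs).2.1 A hA
    · intro A hA B hB hne
      simp only [mem_iUnion] at hA hB
      obtain ⟨s, hs, hA⟩ := hA
      obtain ⟨s', hs', hB⟩ := hB
      rcases le_total s s' with hle | hle
      · exact (ih s' hs').2.2 A (chain_mono' Y task hle hA) B hB hne
      · exact (ih s hs).2.2 A hA B (chain_mono' Y task hle hB) hne

/-- The final family. -/
lemma exists_family (hT : ∀ t : T, (Iio t).Countable) (hsurj : Function.Surjective task) :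
    ∃ S : Set (Set Ω), (∀ A ∈ S, Y.Fr A) ∧ (∀ A ∈ S, ∀ B ∈ S, A ≠ B → (A \ B).Infinite) ∧
      ∀ I X, I ⊆ X → Task S I X := by
  refine ⟨⋃ t, chain Y task t, ?_, ?_, ?_⟩
  · intro A hA
    obtain ⟨t, ht⟩ := mem_iUnion.1 hA
    exact (chain_good Y task hT t).2.1 A ht
  · intro A hA B hB hne
    obtain ⟨s, hs⟩ := mem_iUnion.1 hA
    obtain ⟨t, ht⟩ := mem_iUnion.1 hB
    rcases le_total s t with hle | hle
    · exact (chain_good Y task hT t).2.2 A (chain_mono' Y task hle hs) B ht hne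
    · exact (chain_good Y task hT s).2.2 A hs B (chain_mono' Y task hle ht) hne
  · intro I X hIX
    obtain ⟨t, ht⟩ := hsurj (I, X)
    have hI : (task t).1 = I := by rw [ht]
    have hX : (task t).2 = X := by rw [ht]
    have hgood : Good Y (⋃ s, ⋃ _ : s < t, chain Y task s) := by
      refine ⟨?_, ?_, ?_⟩
      · have : (⋃ s, ⋃ _ : s < t, chain Y task s) = ⋃ s ∈ Iio t, chain Y task s := rfl
        rw [this]
        exact (hT t).biUnion (fun s hs => (chain_good Y task hT s).1)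
      · intro A hA
        simp only [mem_iUnion] at hA
        obtain ⟨s, hs, hA⟩ := hA
        exact (chain_good Y task hT s).2.1 A hA
      · intro A hA B hB hne
        simp only [mem_iUnion] at hA hB
        obtain ⟨s, hs, hA⟩ := hA
        obtain ⟨s', hs', hB⟩ := hB
        rcases le_total s s' with hle | hle
        · exact (chain_good Y task hT s').2.2 A (chain_mono' Y task hle hA) B hB hne
        · exact (chain_good Y task hT s).2.2 A hA B (chain_mono' Y task hle hB) hne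
    have := stepFun_task Y hgood hIX
    have e : chain Y task t = stepFun Y (⋃ s, ⋃ _ : s < t, chain Y task s) I X := by
      rw [chain_eq Y task t, hI, hX]
    rw [← e] at this
    exact this.mono (subset_iUnion _ t)

end Recursion

end Vale.Agent.P068
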