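import Mathlib

/-!
Small sets: sets meeting the fibres of `Nat.sqrt` in boundedly many points.
Splitting countably many infinite sets by a small set.
-/

namespace Vale.Agent.P068

open Set

/-- The `n`-th block. -/
def blk (n : ℕ) : Set ℕ := {m | Nat.sqrt m = n}

lemma blk_eq (n : ℕ) : blk n = ↑(Finset.Ico (n * n) ((n + 1) * (n + 1))) := by
  ext m
  simp only [blk, mem_ofPred_eq, Finset.coe_Ico, mem_Ico]
  constructor
  · rintro rfl
    exact ⟨Nat.sqrt_le m, Nat.lt_succ_sqrt m⟩
  · rintro ⟨h1, h2⟩
    apply le_antisymm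
    · have := Nat.sqrt_lt.2 h2
      omega
    · exact Nat.le_sqrt.2 h1

lemma blk_finite (n : ℕ) : (blk n).Finite := by
  rw [blk_eq]; exact Finset.finite_toSet _

lemma blk_ncard (n : ℕ) : (blk n).ncard = 2 * n + 1 := by
  rw [blk_eq, ncard_coe_finset, Nat.card_Ico]
  have : (n + 1) * (n + 1) = n * n + (2 * n + 1) := by ring
  omega

lemma blk_disjoint {m n : ℕ} (h : m ≠ n) : Disjoint (blk m) (blk n) := by
  rw [Set.disjoint_left]
  intro x hx hx'
  exact h (hx.symm.trans hx')

/-- A set of naturals is small if it meets all blocks in boundedly many points. -/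
def Small (J : Set ℕ) : Prop := ∃ k : ℕ, ∀ n, (J ∩ blk n).ncard ≤ k

lemma Small.subset {J J' : Set ℕ} (h : Small J) (hJ : J' ⊆ J) : Small J' := by
  obtain ⟨k, hk⟩ := h
  refine ⟨k, fun n => le_trans ?_ (hk n)⟩
  exact ncard_le_ncard (inter_subset_inter_left _ hJ) ((blk_finite n).subset inter_subset_right)

lemma Small.union {J J' : Set ℕ} (h : Small J) (h' : Small J') : Small (J ∪ J') := by
  obtain ⟨k, hk⟩ := h
  obtain ⟨k', hk'⟩ := h'
  refine ⟨k + k', fun n => ?_⟩
  rw [union_inter_distrib_right]
  exact (ncard_union_le _ _).trans (add_le_add (hk n) (hk' n))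

lemma Small.of_finite {J : Set ℕ} (h : J.Finite) : Small J :=
  ⟨J.ncard, fun _ => ncard_le_ncard inter_subset_left h⟩

lemma not_small_univ : ¬ Small univ := by
  rintro ⟨k, hk⟩
  have := hk k
  rw [univ_inter, blk_ncard] at this
  omega

lemma Small.of_injOn {J : Set ℕ} (h : InjOn Nat.sqrt J) : Small J := by
  refine ⟨1, fun n => ?_⟩
  rw [ncard_le_one ((blk_finite n).subset inter_subset_right)]
  rintro a ⟨ha, ha'⟩ b ⟨hb, hb'⟩
  exact h ha hb (ha'.trans hb'.symm)

/-- Splitting lemma for a finite-to-one rank function. -/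
lemma exists_split {Ω : Type} (ψ : Ω → ℕ) (hψ : ∀ n, {x | ψ x ≤ n}.Finite)
    (C : Set (Set Ω)) (hC : C.Countable) (hinf : ∀ D ∈ C, D.Infinite) :
    ∃ J, InjOn ψ J ∧ ∀ D ∈ C, (D ∩ J).Infinite ∧ (D \ J).Infinite := by
  classical
  rcases C.eq_empty_or_nonempty with rfl | hne
  · exact ⟨∅, injOn_empty _, by simp⟩
  obtain ⟨f, rfl⟩ := hC.exists_eq_range hne
  have hex : ∀ k N : ℕ, ∃ x, x ∈ f k ∧ N < ψ x := by
    intro k N
    have hk := hinf (f k) ⟨k, rfl⟩
    obtain ⟨x, hx, hx'⟩ := hk.exists_notMem_finset (hψ N).toFinset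
    refine ⟨x, hx, ?_⟩
    simpa using hx'
  choose h hh1 hh2 using hex
  let g : ℕ → ℕ := fun n => (Nat.unpair (n / 2)).1
  let z : ℕ → Ω := fun n => Nat.rec (h (g 0) 0) (fun m x => h (g (m + 1)) (ψ x)) n
  have hz : ∀ n, z n ∈ f (g n) := by
    intro n
    cases n with
    | zero => exact hh1 _ _
    | succ m => exact hh1 _ _
  have hmono : StrictMono (fun n => ψ (z n)) := by
    apply strictMono_nat_of_lt_succ
    intro n
    exact hh2 _ _
  have hinj : ∀ a b, z a = z b → a = b := by
    intro a b hab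
    apply hmono.injective
    simp [hab]
  refine ⟨range (fun n => z (2 * n)), ?_, ?_⟩
  · rintro _ ⟨a, rfl⟩ _ ⟨b, rfl⟩ hab
    have := hmono.injective hab
    simp only at this ⊢
    rw [this]
  · rintro _ ⟨k, rfl⟩
    constructor
    · refine Set.infinite_of_injective_forall_mem (f := fun m : ℕ => z (2 * Nat.pair k m)) ?_ ?_
      · intro a b hab
        have := hinj _ _ hab
        have h2 : Nat.pair k a = Nat.pair k b := by omega
        exact (Nat.pair_eq_pair.1 h2).2
      · intro m
        refine ⟨?_, ⟨_, rfl⟩⟩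
        have := hz (2 * Nat.pair k m)
        have e : g (2 * Nat.pair k m) = k := by
          simp only [g]
          rw [Nat.mul_div_cancel_left _ (by norm_num), Nat.unpair_pair]
        rwa [e] at this
    · refine Set.infinite_of_injective_forall_mem (f := fun m : ℕ => z (2 * Nat.pair k m + 1)) ?_ ?_
      · intro a b hab
        have := hinj (2 * Nat.pair k a + 1) (2 * Nat.pair k b + 1) hab
        have h2 : Nat.pair k a = Nat.pair k b := by omega
        exact (Nat.pair_eq_pair.1 h2).2
      · intro m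
        refine ⟨?_, ?_⟩
        · have := hz (2 * Nat.pair k m + 1)
          have e : g (2 * Nat.pair k m + 1) = k := by
            simp only [g]
            have : (2 * Nat.pair k m + 1) / 2 = Nat.pair k m := by omega
            rw [this, Nat.unpair_pair]
          rwa [e] at this
        · rintro ⟨q, hq⟩
          have := hinj (2 * q) (2 * Nat.pair k m + 1) hq
          omega

end Vale.Agent.P068
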