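import Mathlib
import Vale.Agent.Lib.P068.Recursion
import Vale.Agent.Lib.P068.Split

/-!
An ultrafilter containing no small set, a chain of proper subfilters, and the rank.
-/

namespace Vale.Agent.P068

open Set

/-- The filter of co-small sets. -/
def coSmall : Filter ℕ where
  sets := {X | Small Xᶜ}
  univ_sets := by
    show Small univᶜ
    rw [compl_univ]; exact Small.of_finite finite_empty
  sets_of_superset := by
    intro X Z hX hXZ
    exact Small.subset hX (compl_subset_compl.2 hXZ)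
  inter_sets := by
    intro X Z hX hZ
    show Small (X ∩ Z)ᶜ
    rw [compl_inter]; exact Small.union hX hZ

lemma coSmall_neBot : coSmall.NeBot := by
  rw [Filter.neBot_iff]
  intro h
  have : (∅ : Set ℕ) ∈ coSmall := by rw [h]; exact Filter.mem_bot
  have h2 : Small (∅ : Set ℕ)ᶜ := this
  rw [compl_empty] at h2
  exact not_small_univ h2

/-- The ultrafilter. -/
noncomputable def UF : Ultrafilter ℕ := @Ultrafilter.of ℕ coSmall coSmall_neBot

lemma UF_cosmall {X : Set ℕ} (h : Small Xᶜ) : X ∈ UF :=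
  (@Ultrafilter.of_le ℕ coSmall coSmall_neBot) h

lemma UF_not_small {X : Set ℕ} (h : Small X) : X ∉ UF := by
  intro hX
  have : Xᶜ ∈ UF := UF_cosmall (by rwa [compl_compl])
  exact (Ultrafilter.compl_mem_iff_notMem.1 this) hX

/-- For countably many members of the ultrafilter there is a member of the ultrafilter outside
the filter they generate together with the co-small sets. -/
lemma exists_not_generated (G : Set (Set ℕ)) (hG : G.Countable) (hGU : ∀ X ∈ G, X ∈ UF) :
    ∃ A ∈ UF, A ∉ Filter.generate ({X | Small Xᶜ} ∪ G) := by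
  classical
  obtain ⟨f, hf⟩ := (hG.insert univ).exists_eq_range (insert_nonempty univ G)
  have hfU : ∀ k, f k ∈ UF := by
    intro k
    have : f k ∈ insert univ G := hf ▸ mem_range_self k
    rcases this with h | h
    · rw [h]; exact Filter.univ_mem
    · exact hGU _ h
  let F : ℕ → Set ℕ := fun k => ⋂ j ∈ Finset.range (k + 1), f j
  have hFU : ∀ k, F k ∈ UF := by
    intro k
    exact (Filter.biInter_finset_mem (Finset.range (k + 1))).2 (fun j _ => hfU j)
  have hFanti : ∀ k m, k ≤ m → F m ⊆ F k := by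
    intro k m hkm x hx
    simp only [F, mem_iInter, Finset.mem_range] at hx ⊢
    intro j hj
    exact hx j (by omega)
  have hFf : ∀ k, F k ⊆ f k := by
    intro k x hx
    simp only [F, mem_iInter, Finset.mem_range] at hx
    exact hx k (by omega)
  have hbig : ∀ k N : ℕ, ∃ n, N < n ∧ 2 * k ≤ (F k ∩ blk n).ncard := by
    intro k N
    have hns : ¬ Small (F k) := fun h => UF_not_small h (hFU k)
    unfold Small at hns
    push Not at hns
    obtain ⟨n, hn⟩ := hns (2 * k + (2 * N + 1))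
    refine ⟨n, ?_, by omega⟩
    have h1 : (F k ∩ blk n).ncard ≤ (blk n).ncard :=
      ncard_le_ncard inter_subset_right (blk_finite n)
    rw [blk_ncard] at h1
    omega
  choose h hh1 hh2 using hbig
  let z : ℕ → ℕ := fun n => Nat.rec (h 0 0) (fun m x => h (m + 1) x) n
  have hz : ∀ k, 2 * k ≤ (F k ∩ blk (z k)).ncard := by
    intro k
    cases k with
    | zero => exact Nat.zero_le _
    | succ m => exact hh2 _ _
  have hmono : StrictMono z := by
    apply strictMono_nat_of_lt_succ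
    intro n
    exact hh1 _ _
  have hsub : ∀ k, ∃ a ⊆ F k ∩ blk (z k), a.ncard = k := by
    intro k
    exact Set.exists_subset_card_eq (by have := hz k; omega)
  choose a ha1 ha2 using hsub
  set A : Set ℕ := ⋃ k, a k with hA
  have hAblk : ∀ k, A ∩ blk (z k) = a k := by
    intro k
    ext x
    constructor
    · rintro ⟨hx, hx'⟩
      obtain ⟨j, hj⟩ := mem_iUnion.1 hx
      have hj' := (ha1 j hj).2
      have : z j = z k := hj'.symm.trans hx'
      rwa [← hmono.injective this]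
    · intro hx
      exact ⟨mem_iUnion.2 ⟨k, hx⟩, (ha1 k hx).2⟩
  -- positivity of A and its complement
  have pos1 : ∀ k m, k ≤ m → m ≤ ((F k ∩ A) ∩ blk (z m)).ncard := by
    intro k m hkm
    have : a m ⊆ (F k ∩ A) ∩ blk (z m) := by
      intro x hx
      exact ⟨⟨hFanti k m hkm (ha1 m hx).1, mem_iUnion.2 ⟨m, hx⟩⟩, (ha1 m hx).2⟩
    calc m = (a m).ncard := (ha2 m).symm
      _ ≤ _ := ncard_le_ncard this ((blk_finite _).subset inter_subset_right)
  have pos2 : ∀ k m, k ≤ m → m ≤ ((F k \ A) ∩ blk (z m)).ncard := by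
    intro k m hkm
    have hsubs : (F m ∩ blk (z m)) \ a m ⊆ (F k \ A) ∩ blk (z m) := by
      rintro x ⟨⟨hx, hx'⟩, hxa⟩
      refine ⟨⟨hFanti k m hkm hx, fun hxA => hxa ?_⟩, hx'⟩
      rw [← hAblk m]
      exact ⟨hxA, hx'⟩
    have hfin : (F m ∩ blk (z m)).Finite := (blk_finite _).subset inter_subset_right
    have h1 : ((F m ∩ blk (z m)) \ a m).ncard = (F m ∩ blk (z m)).ncard - (a m).ncard :=
      ncard_sdiff (ha1 m) (hfin.subset (ha1 m))
    have h2 := ncard_le_ncard hsubs ((blk_finite _).subset inter_subset_right)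
    have h3 := hz m
    have h4 := ha2 m
    omega
  -- membership in the generated filter
  have hgen : ∀ H, H ∈ Filter.generate ({X | Small Xᶜ} ∪ G) → ∃ k, Small (F k \ H) := by
    intro H hH
    have hH' : Filter.GenerateSets ({X | Small Xᶜ} ∪ G) H := hH
    induction hH' with
    | basic h =>
      rename_i s
      rcases h with h | h
      · exact ⟨0, Small.subset h (fun x hx => hx.2)⟩
      · have : s ∈ range f := hf ▸ (mem_insert_of_mem univ h)
        obtain ⟨k, rfl⟩ := this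
        refine ⟨k, ?_⟩
        have : F k \ f k = ∅ := sdiff_eq_empty.2 (hFf k)
        rw [this]; exact Small.of_finite finite_empty
    | univ =>
      refine ⟨0, ?_⟩
      rw [sdiff_univ]; exact Small.of_finite finite_empty
    | superset hs hst ih =>
      obtain ⟨k, hk⟩ := ih hs
      exact ⟨k, hk.subset (sdiff_subset_sdiff_right hst)⟩
    | inter hs ht ih1 ih2 =>
      rename_i s t
      obtain ⟨k, hk⟩ := ih1 hs
      obtain ⟨l, hl⟩ := ih2 ht
      refine ⟨max k l, (hk.union hl).subset ?_⟩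
      rintro x ⟨hx, hx'⟩
      by_cases hxs : x ∈ s ∧ x ∈ t
      · exact absurd hxs hx'
      · rcases not_and_or.1 hxs with h | h
        · exact Or.inl ⟨hFanti k _ (le_max_left _ _) hx, h⟩
        · exact Or.inr ⟨hFanti l _ (le_max_right _ _) hx, h⟩
  have hnA : A ∉ Filter.generate ({X | Small Xᶜ} ∪ G) := by
    intro hmem
    obtain ⟨k, b, hb⟩ := hgen A hmem
    have h1 := pos2 k (max k (b + 1)) (le_max_left _ _)
    have h2 := hb (z (max k (b + 1)))
    have h3 := le_max_right k (b + 1)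
    omega
  have hnAc : Aᶜ ∉ Filter.generate ({X | Small Xᶜ} ∪ G) := by
    intro hmem
    obtain ⟨k, b, hb⟩ := hgen Aᶜ hmem
    have e : F k \ Aᶜ = F k ∩ A := by
      ext x; simp only [mem_sdiff, mem_compl_iff, mem_inter_iff, not_not]
    rw [e] at hb
    have h1 := pos1 k (max k (b + 1)) (le_max_left _ _)
    have h2 := hb (z (max k (b + 1)))
    have h3 := le_max_right k (b + 1)
    omega
  by_cases hAU : A ∈ UF
  · exact ⟨A, hAU, hnA⟩
  · exact ⟨Aᶜ, Ultrafilter.compl_mem_iff_notMem.2 hAU, hnAc⟩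

section Chain

variable {T : Type} [LinearOrder T] [WellFoundedLT T] (s : T → Set ℕ)

/-- Generators of the `δ`-th filter. -/
def gens (δ : T) : Set (Set ℕ) := {X | X ∈ UF ∧ ∃ t < δ, s t = X}

/-- The `δ`-th filter. -/
def HF (δ : T) : Filter ℕ := Filter.generate ({X | Small Xᶜ} ∪ gens s δ)

lemma HF_mono {δ ε : T} (h : δ ≤ ε) {X : Set ℕ} (hX : X ∈ HF s δ) : X ∈ HF s ε := by
  have : HF s ε ≤ HF s δ := by
    unfold HF
    rw [Filter.le_generate_iff]
    rintro Z (hZ | ⟨hZ, t, ht, rfl⟩)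
    · exact Filter.GenerateSets.basic (Or.inl hZ)
    · exact Filter.GenerateSets.basic (Or.inr ⟨hZ, t, ht.trans_le h, rfl⟩)
  exact this hX

lemma HF_cosmall (δ : T) {X : Set ℕ} (h : Small Xᶜ) : X ∈ HF s δ :=
  Filter.GenerateSets.basic (Or.inl h)

lemma HF_sub {δ : T} {X : Set ℕ} (hX : X ∈ HF s δ) : X ∈ UF := by
  have : (UF : Filter ℕ) ≤ HF s δ := by
    unfold HF
    rw [Filter.le_generate_iff]
    rintro X (h | h)
    · exact UF_cosmall h
    · exact h.1
  exact this hX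

lemma HF_ne (hT : ∀ t : T, (Iio t).Countable) (δ : T) : ∃ A ∈ UF, A ∉ HF s δ := by
  refine exists_not_generated (gens s δ) ?_ (fun X hX => hX.1)
  refine ((hT δ).image s).mono ?_
  rintro X ⟨_, t, ht, rfl⟩
  exact ⟨t, ht, rfl⟩

lemma HF_exhaust [NoMaxOrder T] (hs : Function.Surjective s) (X : Set ℕ) :
    ∃ δ : T, X ∈ HF s δ ∨ Xᶜ ∈ HF s δ := by
  by_cases hX : X ∈ UF
  · obtain ⟨t, ht⟩ := hs X
    obtain ⟨δ, hδ⟩ := exists_gt t
    exact ⟨δ, Or.inl (Filter.GenerateSets.basic (Or.inr ⟨hX, t, hδ, ht⟩))⟩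
  · have hX' : Xᶜ ∈ UF := Ultrafilter.compl_mem_iff_notMem.2 hX
    obtain ⟨t, ht⟩ := hs Xᶜ
    obtain ⟨δ, hδ⟩ := exists_gt t
    exact ⟨δ, Or.inr (Filter.GenerateSets.basic (Or.inr ⟨hX', t, hδ, ht⟩))⟩

variable [NoMaxOrder T] (hs : Function.Surjective s)

/-- The rank of a set: the first stage deciding it. -/
noncomputable def rk (X : Set ℕ) : T :=
  WellFounded.min (wellFounded_lt (α := T)) {δ | X ∈ HF s δ ∨ Xᶜ ∈ HF s δ}
    (HF_exhaust s hs X)

lemma rk_mem (X : Set ℕ) : X ∈ HF s (rk s hs X) ∨ Xᶜ ∈ HF s (rk s hs X) :=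
  WellFounded.min_mem (wellFounded_lt (α := T)) {δ | X ∈ HF s δ ∨ Xᶜ ∈ HF s δ}
    (HF_exhaust s hs X)

lemma rk_le {X : Set ℕ} {δ : T} (h : X ∈ HF s δ ∨ Xᶜ ∈ HF s δ) : rk s hs X ≤ δ := by
  by_contra hcon
  exact WellFounded.not_lt_min (wellFounded_lt (α := T)) {δ | X ∈ HF s δ ∨ Xᶜ ∈ HF s δ}
    (x := δ) h (not_le.1 hcon)

lemma rk_mem_of_mem {X : Set ℕ} (hX : X ∈ UF) : X ∈ HF s (rk s hs X) := by
  rcases rk_mem s hs X with h | h
  · exact h
  · exact absurd hX (Ultrafilter.compl_mem_iff_notMem.1 (HF_sub s h))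

lemma rk_compl (X : Set ℕ) : rk s hs Xᶜ = rk s hs X := by
  apply le_antisymm
  · apply rk_le
    rw [compl_compl]
    exact (rk_mem s hs X).symm
  · apply rk_le
    have := rk_mem s hs Xᶜ
    rw [compl_compl] at this
    exact this.symm

lemma rk_anti {X Z : Set ℕ} (hXZ : X ⊆ Z) (hX : X ∈ UF) : rk s hs Z ≤ rk s hs X :=
  rk_le s hs (Or.inl (Filter.mem_of_superset (rk_mem_of_mem s hs hX) hXZ))

lemma rk_mono {X Z : Set ℕ} (hXZ : X ⊆ Z) (hZ : Z ∉ UF) : rk s hs X ≤ rk s hs Z := by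
  rw [← rk_compl s hs X, ← rk_compl s hs Z]
  exact rk_anti s hs (compl_subset_compl.2 hXZ) (Ultrafilter.compl_mem_iff_notMem.2 hZ)

lemma HF_congr {X Z : Set ℕ} (h : Small (symmDiff X Z)) {δ : T} (hX : X ∈ HF s δ) :
    Z ∈ HF s δ := by
  have h1 : (symmDiff X Z)ᶜ ∈ HF s δ := HF_cosmall s δ (by rwa [compl_compl])
  refine Filter.mem_of_superset (Filter.inter_mem hX h1) ?_
  rintro x ⟨hx, hx'⟩
  by_contra hxZ
  exact hx' (Or.inl ⟨hx, hxZ⟩)

lemma UF_congr {X Z : Set ℕ} (h : Small (symmDiff X Z)) (hX : X ∈ UF) :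
    Z ∈ UF := by
  have h1 : (symmDiff X Z)ᶜ ∈ UF := UF_cosmall (by rwa [compl_compl])
  refine Filter.mem_of_superset (Filter.inter_mem hX h1) ?_
  rintro x ⟨hx, hx'⟩
  by_contra hxZ
  exact hx' (Or.inl ⟨hx, hxZ⟩)

lemma UF_congr_iff {X Z : Set ℕ} (h : Small (symmDiff X Z)) : X ∈ UF ↔ Z ∈ UF :=
  ⟨UF_congr h, UF_congr (by rwa [symmDiff_comm])⟩

lemma symmDiff_compl_compl' (X Z : Set ℕ) : symmDiff Xᶜ Zᶜ = symmDiff X Z := by
  ext x; simp only [Set.mem_symmDiff, mem_compl_iff]; tauto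

lemma rk_le_of_small {X Z : Set ℕ} (h : Small (symmDiff X Z)) : rk s hs Z ≤ rk s hs X := by
  apply rk_le
  rcases rk_mem s hs X with h' | h'
  · exact Or.inl (HF_congr s h h')
  · exact Or.inr (HF_congr s (by rwa [symmDiff_compl_compl']) h')

lemma rk_congr {X Z : Set ℕ} (h : Small (symmDiff X Z)) : rk s hs X = rk s hs Z :=
  le_antisymm (rk_le_of_small s hs (by rwa [symmDiff_comm])) (rk_le_of_small s hs h)

/-- The rank is unbounded on intervals from outside to inside the ultrafilter. -/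
lemma exists_rk_gt (hT : ∀ t : T, (Iio t).Countable) {I X : Set ℕ} (hI : I ∉ UF) (hX : X ∈ UF)
    (hIX : I ⊆ X) (ε : T) : ∃ B ∈ UF, I ⊆ B ∧ B ⊆ X ∧ ε < rk s hs B := by
  set δ := max ε (rk s hs I) with hδ
  obtain ⟨A, hA, hA'⟩ := HF_ne s hT δ
  have hB : I ∪ (A ∩ X) ∈ UF :=
    Filter.mem_of_superset (Filter.inter_mem hA hX) subset_union_right
  refine ⟨I ∪ (A ∩ X), hB, subset_union_left, union_subset hIX inter_subset_right, ?_⟩
  refine (le_max_left ε (rk s hs I)).trans_lt ?_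
  rw [← hδ]
  by_contra hcon
  apply hA'
  have h1 : I ∪ (A ∩ X) ∈ HF s δ := HF_mono s (not_lt.1 hcon) (rk_mem_of_mem s hs hB)
  have h2 : Iᶜ ∈ HF s δ := by
    rcases rk_mem s hs I with h | h
    · exact absurd (HF_sub s h) hI
    · exact HF_mono s (le_max_right _ _) h
  refine Filter.mem_of_superset (Filter.inter_mem h1 h2) ?_
  rintro x ⟨hx | hx, hx'⟩
  · exact absurd hx hx'
  · exact hx.1

/-- The dual statement. -/
lemma exists_rk_gt' (hT : ∀ t : T, (Iio t).Countable) {I X : Set ℕ} (hI : I ∉ UF) (hX : X ∈ UF)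
    (hIX : I ⊆ X) (ε : T) : ∃ B, B ∉ UF ∧ I ⊆ B ∧ B ⊆ X ∧ ε < rk s hs B := by
  obtain ⟨B, hB, h1, h2, h3⟩ := exists_rk_gt s hs hT (I := Xᶜ) (X := Iᶜ)
    (fun h => Ultrafilter.compl_mem_iff_notMem.1 h hX)
    (Ultrafilter.compl_mem_iff_notMem.2 hI) (compl_subset_compl.2 hIX) ε
  refine ⟨Bᶜ, fun h => Ultrafilter.compl_mem_iff_notMem.1 h hB, ?_, ?_, ?_⟩
  · rwa [subset_compl_comm]
  · rwa [compl_subset_comm]
  · rwa [rk_compl]

end Chain

end Vale.Agent.P068
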