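import Mathlib
import Vale.Agent.Lib.P068.Rank

/-!
Consequences of the covering property of the Baire category ideal: fewer than continuum many
dense open sets of the Baire space have a common point.
-/

namespace Vale.Agent.P068

open Set Cardinal

/-- Fewer than continuum many dense open subsets of the Baire space have a common point. -/
def CovCat : Prop :=
  ∀ O : Set (Set (ℕ → ℕ)), #O < continuum → (∀ V ∈ O, IsOpen V ∧ Dense V) →
    (⋂₀ O).Nonempty

lemma covCat_of_CH (hCH : aleph 1 = (continuum : Cardinal.{0})) : CovCat := by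
  intro O hO hV
  have hc : O.Countable := by
    rw [← le_aleph0_iff_set_countable, ← lt_aleph_one_iff, hCH]
    exact hO
  exact (dense_sInter_of_isOpen (fun V h => (hV V h).1) hc (fun V h => (hV V h).2)).nonempty

lemma dense_of_modify {O : Set (ℕ → ℕ)}
    (h : ∀ (f : ℕ → ℕ) (N : ℕ), ∃ g ∈ O, ∀ i < N, g i = f i) : Dense O := by
  intro f
  choose g hg hgf using h f
  refine mem_closure_of_tendsto (f := g) (b := Filter.atTop) ?_ (Filter.Eventually.of_forall hg)
  rw [tendsto_pi_nhds]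
  intro i
  refine tendsto_const_nhds.congr' ?_
  filter_upwards [Filter.eventually_gt_atTop i] with N hN
  exact (hgf N i hN).symm

lemma isOpen_of_modify {O : Set (ℕ → ℕ)}
    (h : ∀ f ∈ O, ∃ N : ℕ, ∀ g : ℕ → ℕ, (∀ i < N, g i = f i) → g ∈ O) : IsOpen O := by
  rw [isOpen_iff_mem_nhds]
  intro f hf
  obtain ⟨N, hN⟩ := h f hf
  have ho : IsOpen (⋂ i ∈ Finset.range N, (fun g : ℕ → ℕ => g i) ⁻¹' {f i}) := by
    apply isOpen_biInter_finset
    intro i _
    exact (isOpen_discrete _).preimage (continuous_apply i)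
  refine Filter.mem_of_superset (ho.mem_nhds ?_) ?_
  · simp
  · intro g hg
    apply hN
    intro i hi
    simp only [mem_iInter, Finset.mem_range, mem_preimage, mem_singleton_iff] at hg
    exact hg i hi

/-- Splitting fewer than continuum many infinite sets by a selector. -/
lemma exists_splitC (hcov : CovCat) {Ω : Type} (e : ℕ ≃ Ω) (ψ : Ω → ℕ)
    (hψ : ∀ n, {x | ψ x ≤ n}.Finite)
    (C : Set (Set Ω)) (hC : #C < continuum) (hinf : ∀ D ∈ C, D.Infinite) :
    ∃ J, InjOn ψ J ∧ ∀ D ∈ C, (D ∩ J).Infinite ∧ (D \ J).Infinite := by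
  classical
  have hex : ∀ D ∈ C, ∀ N : ℕ, ∃ x, x ∈ D ∧ N < ψ x := by
    intro D hD N
    obtain ⟨x, hx, hx'⟩ := (hinf D hD).exists_notMem_finset (hψ N).toFinset
    refine ⟨x, hx, ?_⟩
    simpa using hx'
  have hout : ∀ n : ℕ, ∃ c : ℕ, ψ (e c) ≠ n := by
    intro n
    by_contra hcon
    push Not at hcon
    have h1 : (univ : Set Ω) ⊆ {x | ψ x ≤ n} := by
      intro x _
      have := hcon (e.symm x)
      rw [Equiv.apply_symm_apply] at this
      exact this.le
    have h2 : (univ : Set Ω).Finite := (hψ n).subset h1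
    have h3 : Infinite Ω := e.infinite_iff.1 inferInstance
    exact h3.not_finite (finite_univ_iff.1 h2)
  let P : (ℕ → ℕ) → Set Ω → ℕ → Prop := fun f D n => e (f n) ∈ D ∧ ψ (e (f n)) = n
  let Q : (ℕ → ℕ) → Set Ω → ℕ → Prop := fun f D n => (∃ d ∈ D, ψ d = n) ∧ ψ (e (f n)) ≠ n
  let O1 : C × ℕ → Set (ℕ → ℕ) := fun p => {f | ∃ n, p.2 ≤ n ∧ P f p.1 n}
  let O2 : C × ℕ → Set (ℕ → ℕ) := fun p => {f | ∃ n, p.2 ≤ n ∧ Q f p.1 n}
  have hcard : #(C × ℕ) < continuum := by
    rw [mk_prod, lift_id, lift_id, mk_nat]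
    exact mul_lt_of_lt aleph0_le_continuum hC aleph0_lt_continuum
  have hO : #(range O1 ∪ range O2 : Set (Set (ℕ → ℕ))) < continuum := by
    refine (mk_union_le _ _).trans_lt ?_
    exact add_lt_of_lt aleph0_le_continuum (mk_range_le.trans_lt hcard)
      (mk_range_le.trans_lt hcard)
  obtain ⟨f, hf⟩ := hcov (range O1 ∪ range O2) hO (by
    rintro V (⟨⟨⟨D, hD⟩, N⟩, rfl⟩ | ⟨⟨⟨D, hD⟩, N⟩, rfl⟩)
    · constructor
      · apply isOpen_of_modify
        rintro f ⟨n, hn, h1, h2⟩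
        refine ⟨n + 1, fun g hg => ⟨n, hn, ?_, ?_⟩⟩
        · rw [hg n (Nat.lt_succ_self n)]; exact h1
        · rw [hg n (Nat.lt_succ_self n)]; exact h2
      · apply dense_of_modify
        intro f M
        obtain ⟨x, hx, hx'⟩ := hex D hD (max N M)
        refine ⟨Function.update f (ψ x) (e.symm x), ⟨ψ x, ?_, ?_, ?_⟩, ?_⟩
        · exact (le_max_left N M).trans hx'.le
        · rw [Function.update_self, Equiv.apply_symm_apply]; exact hx
        · rw [Function.update_self, Equiv.apply_symm_apply]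
        · intro i hi
          have : i ≠ ψ x := (hi.trans_le ((le_max_right N M).trans hx'.le)).ne
          rw [Function.update_of_ne this]
    · constructor
      · apply isOpen_of_modify
        rintro f ⟨n, hn, h1, h2⟩
        refine ⟨n + 1, fun g hg => ⟨n, hn, h1, ?_⟩⟩
        rw [hg n (Nat.lt_succ_self n)]; exact h2
      · apply dense_of_modify
        intro f M
        obtain ⟨x, hx, hx'⟩ := hex D hD (max N M)
        obtain ⟨c, hc⟩ := hout (ψ x)
        refine ⟨Function.update f (ψ x) c, ⟨ψ x, ?_, ⟨x, hx, rfl⟩, ?_⟩, ?_⟩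
        · exact (le_max_left N M).trans hx'.le
        · rw [Function.update_self]; exact hc
        · intro i hi
          have : i ≠ ψ x := (hi.trans_le ((le_max_right N M).trans hx'.le)).ne
          rw [Function.update_of_ne this])
  have hf1 : ∀ D ∈ C, ∀ N, ∃ n, N ≤ n ∧ P f D n := fun D hD N =>
    hf (O1 (⟨D, hD⟩, N)) (Or.inl ⟨_, rfl⟩)
  have hf2 : ∀ D ∈ C, ∀ N, ∃ n, N ≤ n ∧ Q f D n := fun D hD N =>
    hf (O2 (⟨D, hD⟩, N)) (Or.inr ⟨_, rfl⟩)
  have hunb : ∀ S : Set Ω, (∀ N : ℕ, ∃ x ∈ S, N ≤ ψ x) → S.Infinite := by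
    intro S hS hfin
    obtain ⟨N, hN⟩ := (hfin.image ψ).bddAbove
    obtain ⟨x, hx, hx'⟩ := hS (N + 1)
    have := hN ⟨x, hx, rfl⟩
    omega
  refine ⟨{x | ∃ n, e (f n) = x ∧ ψ x = n}, ?_, ?_⟩
  · rintro _ ⟨n, rfl, hn⟩ _ ⟨m, rfl, hm⟩ h
    rw [hn, hm] at h
    rw [h]
  · intro D hD
    constructor
    · apply hunb
      intro N
      obtain ⟨n, hn, h1, h2⟩ := hf1 D hD N
      exact ⟨e (f n), ⟨h1, ⟨n, rfl, h2⟩⟩, by omega⟩
    · apply hunb
      intro N
      obtain ⟨n, hn, ⟨d, hd, hdn⟩, h2⟩ := hf2 D hD N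
      refine ⟨d, ⟨hd, ?_⟩, by omega⟩
      rintro ⟨m, hm, hm'⟩
      have : m = n := hm'.symm.trans hdn
      subst this
      rw [← hm] at hm'
      exact h2 hm'

end Vale.Agent.P068
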