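import Mathlib
import Vale.Agent.Lib.P068.Rank

/-!
The typing of the subsets of the disjoint union of two copies of the naturals.
-/

namespace Vale.Agent.P068

open Set

/-- Left part. -/
def lp (X : Set (ℕ ⊕ ℕ)) : Set ℕ := Sum.inl ⁻¹' X

/-- Right part. -/
def rp (X : Set (ℕ ⊕ ℕ)) : Set ℕ := Sum.inr ⁻¹' X

lemma lp_mono {X Z : Set (ℕ ⊕ ℕ)} (h : X ⊆ Z) : lp X ⊆ lp Z := preimage_mono h

lemma rp_mono {X Z : Set (ℕ ⊕ ℕ)} (h : X ⊆ Z) : rp X ⊆ rp Z := preimage_mono h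

lemma lp_finite {X : Set (ℕ ⊕ ℕ)} (h : X.Finite) : (lp X).Finite :=
  h.preimage Sum.inl_injective.injOn

lemma rp_finite {X : Set (ℕ ⊕ ℕ)} (h : X.Finite) : (rp X).Finite :=
  h.preimage Sum.inr_injective.injOn

lemma lp_symmDiff (X Z : Set (ℕ ⊕ ℕ)) : lp (symmDiff X Z) = symmDiff (lp X) (lp Z) := by
  ext x; simp only [lp, mem_preimage, Set.mem_symmDiff]

lemma rp_symmDiff (X Z : Set (ℕ ⊕ ℕ)) : rp (symmDiff X Z) = symmDiff (rp X) (rp Z) := by
  ext x; simp only [rp, mem_preimage, Set.mem_symmDiff]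

/-- A set from its two parts. -/
def mk (A B : Set ℕ) : Set (ℕ ⊕ ℕ) := {x | Sum.elim (· ∈ A) (· ∈ B) x}

@[simp] lemma lp_mk (A B : Set ℕ) : lp (mk A B) = A := rfl

@[simp] lemma rp_mk (A B : Set ℕ) : rp (mk A B) = B := rfl

lemma subset_iff_parts {X Z : Set (ℕ ⊕ ℕ)} : X ⊆ Z ↔ lp X ⊆ lp Z ∧ rp X ⊆ rp Z := by
  constructor
  · exact fun h => ⟨lp_mono h, rp_mono h⟩
  · rintro ⟨h1, h2⟩ (x | x) hx
    · exact h1 hx
    · exact h2 hx

section

variable {T : Type} [LinearOrder T] [WellFoundedLT T] [NoMaxOrder T] (s : T → Set ℕ)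
  (hs : Function.Surjective s)

/-- Negative sets. -/
def Neg (X : Set (ℕ ⊕ ℕ)) : Prop :=
  lp X ∉ UF ∧ (rp X ∉ UF ∨ rk s hs (lp X) ≤ rk s hs (rp X))

/-- Positive sets. -/
def Pos (X : Set (ℕ ⊕ ℕ)) : Prop :=
  lp X ∈ UF ∧ (rp X ∈ UF ∨ rk s hs (lp X) ≤ rk s hs (rp X))

/-- Free sets. -/
def Free (X : Set (ℕ ⊕ ℕ)) : Prop :=
  (lp X ∈ UF ↔ rp X ∉ UF) ∧ rk s hs (rp X) < rk s hs (lp X)

lemma small_symmDiff_of_finite {X Z : Set ℕ} (h1 : (X \ Z).Finite) (h2 : (Z \ X).Finite) :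
    Small (symmDiff X Z) := by
  apply Small.of_finite
  exact h1.union h2

/-- The typing. -/
noncomputable def typing (hT : ∀ t : T, (Iio t).Countable) : Typing (ℕ ⊕ ℕ) where
  N := Neg s hs
  P := Pos s hs
  Fr := Free s hs
  small := fun J => Small (lp J) ∧ Small (rp J)
  cover := by
    intro X
    by_cases h1 : lp X ∈ UF <;> by_cases h2 : rp X ∈ UF
    · exact Or.inr (Or.inr ⟨h1, Or.inl h2⟩)
    · rcases le_or_gt (rk s hs (lp X)) (rk s hs (rp X)) with h | h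
      · exact Or.inr (Or.inr ⟨h1, Or.inr h⟩)
      · exact Or.inr (Or.inl ⟨⟨fun _ => h2, fun _ => h1⟩, h⟩)
    · rcases le_or_gt (rk s hs (lp X)) (rk s hs (rp X)) with h | h
      · exact Or.inl ⟨h1, Or.inr h⟩
      · exact Or.inr (Or.inl ⟨⟨fun h' => absurd h' h1, fun h' => absurd h2 h'⟩, h⟩)
    · exact Or.inl ⟨h1, Or.inl h2⟩
  N_Fr := by
    rintro X ⟨h1, h2⟩ ⟨h3, h4⟩
    rcases h2 with h2 | h2
    · exact h1 (h3.2 h2)
    · exact absurd h4 (not_lt.2 h2)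
  P_Fr := by
    rintro X ⟨h1, h2⟩ ⟨h3, h4⟩
    rcases h2 with h2 | h2
    · exact h3.1 h1 h2
    · exact absurd h4 (not_lt.2 h2)
  N_down := by
    rintro X Z hXZ ⟨h1, h2⟩
    refine ⟨fun h => h1 (Filter.mem_of_superset h (lp_mono hXZ)), ?_⟩
    by_cases h3 : rp X ∈ UF
    · right
      rcases h2 with h2 | h2
      · exact absurd (Filter.mem_of_superset h3 (rp_mono hXZ)) h2
      · exact (rk_mono s hs (lp_mono hXZ) h1).trans (h2.trans (rk_anti s hs (rp_mono hXZ) h3))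
    · exact Or.inl h3
  P_up := by
    rintro X Z hXZ ⟨h1, h2⟩
    refine ⟨Filter.mem_of_superset h1 (lp_mono hXZ), ?_⟩
    by_cases h3 : rp Z ∈ UF
    · exact Or.inl h3
    · right
      rcases h2 with h2 | h2
      · exact absurd (Filter.mem_of_superset h2 (rp_mono hXZ)) h3
      · exact (rk_anti s hs (lp_mono hXZ) h1).trans (h2.trans (rk_mono s hs (rp_mono hXZ) h3))
  N_fin := by
    rintro X Z h1 h2 ⟨h3, h4⟩
    have hl : Small (symmDiff (lp X) (lp Z)) := small_symmDiff_of_finite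
      (lp_finite h1) (lp_finite h2)
    have hr : Small (symmDiff (rp X) (rp Z)) := small_symmDiff_of_finite
      (rp_finite h1) (rp_finite h2)
    unfold Neg
    rw [← UF_congr_iff hl, ← UF_congr_iff hr, ← rk_congr s hs hl, ← rk_congr s hs hr]
    exact ⟨h3, h4⟩
  P_fin := by
    rintro X Z h1 h2 ⟨h3, h4⟩
    have hl : Small (symmDiff (lp X) (lp Z)) := small_symmDiff_of_finite
      (lp_finite h1) (lp_finite h2)
    have hr : Small (symmDiff (rp X) (rp Z)) := small_symmDiff_of_finite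
      (rp_finite h1) (rp_finite h2)
    unfold Pos
    rw [← UF_congr_iff hl, ← UF_congr_iff hr, ← rk_congr s hs hl, ← rk_congr s hs hr]
    exact ⟨h3, h4⟩
  Fr_small := by
    rintro X J ⟨h1, h2⟩ ⟨h3, h4⟩
    have hl : Small (symmDiff (lp X) (lp (symmDiff X J))) := by
      rw [lp_symmDiff, symmDiff_symmDiff_cancel_left]; exact h3
    have hr : Small (symmDiff (rp X) (rp (symmDiff X J))) := by
      rw [rp_symmDiff, symmDiff_symmDiff_cancel_left]; exact h4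
    unfold Free
    rw [← UF_congr_iff hl, ← UF_congr_iff hr, ← rk_congr s hs hl, ← rk_congr s hs hr]
    exact ⟨h1, h2⟩
  small_sub := by
    rintro J J' h ⟨h1, h2⟩
    exact ⟨h1.subset (lp_mono h), h2.subset (rp_mono h)⟩
  split := by
    intro C hC hinf
    have hψ : ∀ n, {x : ℕ ⊕ ℕ | Sum.elim Nat.sqrt Nat.sqrt x ≤ n}.Finite := by
      intro n
      have hfin : {m : ℕ | Nat.sqrt m ≤ n}.Finite := by
        refine (Set.finite_Iio ((n + 1) * (n + 1))).subset ?_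
        intro m hm
        have hm' : Nat.sqrt m < n + 1 := Nat.lt_succ_of_le hm
        exact Nat.sqrt_lt.1 hm'
      refine ((hfin.image Sum.inl).union (hfin.image Sum.inr)).subset ?_
      rintro (x | x) hx
      · exact Or.inl ⟨x, hx, rfl⟩
      · exact Or.inr ⟨x, hx, rfl⟩
    obtain ⟨J, hJ, h⟩ := exists_split (Sum.elim Nat.sqrt Nat.sqrt) hψ C hC hinf
    refine ⟨J, ⟨Small.of_injOn ?_, Small.of_injOn ?_⟩, h⟩
    · intro a ha b hb hab
      have ha' : (Sum.inl a : ℕ ⊕ ℕ) ∈ J := ha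
      have hb' : (Sum.inl b : ℕ ⊕ ℕ) ∈ J := hb
      exact Sum.inl_injective (hJ ha' hb' hab)
    · intro a ha b hb hab
      have ha' : (Sum.inr a : ℕ ⊕ ℕ) ∈ J := ha
      have hb' : (Sum.inr b : ℕ ⊕ ℕ) ∈ J := hb
      exact Sum.inr_injective (hJ ha' hb' hab)
  interp := by
    rintro I X ⟨h1, h2⟩ ⟨h3, h4⟩ hIX
    by_cases hr : rp I ∈ UF
    · obtain ⟨B, hB1, hB2, hB3, hB4⟩ := exists_rk_gt' s hs hT h1 h3 (lp_mono hIX)
        (rk s hs (rp I))
      refine ⟨mk B (rp I), ?_, ?_, ?_⟩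
      · exact ⟨⟨fun h => absurd h hB1, fun h => absurd hr h⟩, hB4⟩
      · exact subset_iff_parts.2 ⟨hB2, Subset.rfl⟩
      · exact subset_iff_parts.2 ⟨hB3, (rp_mono hIX : rp I ⊆ rp X)⟩
    · obtain ⟨B, hB1, hB2, hB3, hB4⟩ := exists_rk_gt s hs hT h1 h3 (lp_mono hIX)
        (rk s hs (rp I))
      refine ⟨mk B (rp I), ?_, ?_, ?_⟩
      · exact ⟨⟨fun _ => hr, fun _ => hB1⟩, hB4⟩
      · exact subset_iff_parts.2 ⟨hB2, Subset.rfl⟩
      · exact subset_iff_parts.2 ⟨hB3, (rp_mono hIX : rp I ⊆ rp X)⟩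
  N_empty := ⟨fun h => UF_not_small (Small.of_finite finite_empty) h,
    Or.inl (fun h => UF_not_small (Small.of_finite finite_empty) h)⟩
  P_univ := ⟨Filter.univ_mem, Or.inl Filter.univ_mem⟩

end

end Vale.Agent.P068
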