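import Mathlib
import Vale.Agent.Lib.P068.Types
import Vale.Agent.Lib.P068.Uniform

/-!
The wild uniform matroid on the disjoint union of two copies of the naturals, assuming that the
continuum is the first uncountable cardinal.
-/

namespace Vale.Agent.P068

open Set Cardinal

/-- The data needed for the descent argument. -/
structure WildData where
  T : Type
  ord : LinearOrder T
  wf : WellFoundedLT T
  r : Set ℕ → T
  F : Ultrafilter ℕ
  U : Matroid (ℕ ⊕ ℕ)
  ground : U.E = Set.univ
  free : ∀ B, U.IsBase B → (lp B ∈ F ↔ rp B ∉ F) ∧ r (rp B) < r (lp B)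
  swap : ∀ B x y, U.IsBase B → x ∈ B → y ∉ B → U.IsBase (insert y (B \ {x}))
  unif : ∀ X, U.Indep X ∨ ∃ B, U.IsBase B ∧ B ⊆ X
  r_compl : ∀ X, r Xᶜ = r X
  r_anti : ∀ X Z, X ⊆ Z → X ∈ F → r Z ≤ r X
  r_mono : ∀ X Z, X ⊆ Z → Z ∉ F → r X ≤ r Z

attribute [instance] WildData.ord WildData.wf

theorem exists_wildData (hCH : aleph 1 = (continuum : Cardinal.{0})) : Nonempty WildData := by
  classical
  let T : Type := (aleph 1).ord.ToType
  have hinf : ℵ₀ ≤ aleph 1 := aleph0_le_aleph 1
  have : NoMaxOrder T := Cardinal.noMaxOrder hinf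
  have hT : ∀ t : T, (Iio t).Countable := by
    intro t
    rw [← le_aleph0_iff_set_countable, ← lt_aleph_one_iff]
    exact mk_Iio_toType_ord_lt t
  have hcardT : #T = continuum := by
    rw [← hCH]
    exact mk_ord_toType _
  have h1 : #(Set ℕ) = #T := by
    rw [hcardT, mk_set, mk_nat]; rfl
  obtain ⟨e1⟩ := Cardinal.eq.1 h1
  have h2 : #(Set (ℕ ⊕ ℕ) × Set (ℕ ⊕ ℕ)) = #T := by
    rw [hcardT, mk_prod, mk_set, lift_id, mk_sum, mk_nat]
    simp
  obtain ⟨e2⟩ := Cardinal.eq.1 h2
  let s : T → Set ℕ := e1.symm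
  have hs : Function.Surjective s := e1.symm.surjective
  obtain ⟨U, hU1, hU2, hU3, hU4⟩ := exists_matroid (typing s hs hT) (fun t => e2.symm t) hT
    e2.symm.surjective
  exact ⟨{
    T := T
    ord := inferInstance
    wf := inferInstance
    r := rk s hs
    F := UF
    U := U
    ground := hU1
    free := hU2
    swap := hU3
    unif := hU4
    r_compl := rk_compl s hs
    r_anti := fun X Z h h' => rk_anti s hs h h'
    r_mono := fun X Z h h' => rk_mono s hs h h' }⟩

end Vale.Agent.P068
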