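import Mathlib
import Vale.Agent.Lib.P068.Wild

/-!
The descent lemma: an abstract form of the final contradiction.
-/

namespace Vale.Agent.P068

open Set

variable (D : WildData)

/-- Descent in one direction. -/
lemma descent_ray (X : ℕ → Set (ℕ ⊕ ℕ)) (typ : ℕ → Prop)
    (h1 : ∀ k, typ k → ∃ B, D.U.IsBase B ∧ B ⊆ X k)
    (h2 : ∀ k, ¬ typ k → ∃ B, D.U.IsBase B ∧ X k ⊆ B)
    (h3 : ∀ k n, n ∈ rp (X k) ↔ n ∉ lp (X (k + 1)))
    (h4 : ∀ k, typ k → ¬ typ (k + 1) → ∀ n, n ∉ rp (X k))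
    (h5 : ∀ k, ¬ typ k → typ (k + 1) → ∀ n, n ∈ rp (X k))
    (h0 : (typ 0 ∧ lp (X 0) ∉ D.F) ∨ (¬ typ 0 ∧ lp (X 0) ∈ D.F)) : False := by
  have hc : ∀ k, lp (X (k + 1)) = (rp (X k))ᶜ := by
    intro k
    ext n
    rw [mem_compl_iff, h3 k n, not_not]
  have key : ∀ k, ((typ k ∧ lp (X k) ∉ D.F) ∨ (¬ typ k ∧ lp (X k) ∈ D.F)) →
      ((typ (k + 1) ∧ lp (X (k + 1)) ∉ D.F) ∨ (¬ typ (k + 1) ∧ lp (X (k + 1)) ∈ D.F)) ∧
      D.r (lp (X (k + 1))) < D.r (lp (X k)) := by
    intro k hk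
    rcases hk with ⟨hP, hX⟩ | ⟨hC, hX⟩
    · obtain ⟨B, hB, hBX⟩ := h1 k hP
      obtain ⟨hf, hr⟩ := D.free B hB
      have hBl : lp B ∉ D.F := fun h => hX (Filter.mem_of_superset h (lp_mono hBX))
      have hBr : rp B ∈ D.F := by
        by_contra hcon
        exact hBl (hf.2 hcon)
      have hXr : rp (X k) ∈ D.F := Filter.mem_of_superset hBr (rp_mono hBX)
      have hty : typ (k + 1) := by
        by_contra hcon
        have he : rp (X k) = ∅ := by
          ext n; simp only [mem_empty_iff_false, iff_false]; exact h4 k hP hcon n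
        rw [he] at hXr
        exact D.F.empty_notMem hXr
      refine ⟨Or.inl ⟨hty, ?_⟩, ?_⟩
      · rw [hc k]
        exact fun h => Ultrafilter.compl_mem_iff_notMem.1 h hXr
      · rw [hc k, D.r_compl]
        exact ((D.r_anti _ _ (rp_mono hBX) hBr).trans_lt hr).trans_le
          (D.r_mono _ _ (lp_mono hBX) hX)
    · obtain ⟨B, hB, hBX⟩ := h2 k hC
      obtain ⟨hf, hr⟩ := D.free B hB
      have hBl : lp B ∈ D.F := Filter.mem_of_superset hX (lp_mono hBX)
      have hBr : rp B ∉ D.F := hf.1 hBl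
      have hXr : rp (X k) ∉ D.F := fun h => hBr (Filter.mem_of_superset h (rp_mono hBX))
      have hty : ¬ typ (k + 1) := by
        intro hcon
        have he : rp (X k) = univ := by
          ext n; simp only [mem_univ, iff_true]; exact h5 k hC hcon n
        rw [he] at hXr
        exact hXr Filter.univ_mem
      refine ⟨Or.inr ⟨hty, ?_⟩, ?_⟩
      · rw [hc k]
        exact Ultrafilter.compl_mem_iff_notMem.2 hXr
      · rw [hc k, D.r_compl]
        exact ((D.r_mono _ _ (rp_mono hBX) hBr).trans_lt hr).trans_le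
          (D.r_anti _ _ (lp_mono hBX) hX)
  have main : ∀ t : D.T, ∀ k, ((typ k ∧ lp (X k) ∉ D.F) ∨ (¬ typ k ∧ lp (X k) ∈ D.F)) →
      D.r (lp (X k)) = t → False := by
    intro t
    induction t using WellFoundedLT.induction with
    | ind t ih =>
      intro k hk ht
      obtain ⟨ha, hb⟩ := key k hk
      exact ih _ (ht ▸ hb) (k + 1) ha rfl
  exact main _ 0 h0 rfl

/-- The descent lemma. -/
theorem descent (X : Bool → ℕ → Set (ℕ ⊕ ℕ)) (typ : Bool → ℕ → Prop)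
    (h1 : ∀ s k, typ s k → ∃ B, D.U.IsBase B ∧ B ⊆ X s k)
    (h2 : ∀ s k, ¬ typ s k → ∃ B, D.U.IsBase B ∧ X s k ⊆ B)
    (h3 : ∀ s k n, n ∈ rp (X s k) ↔ n ∉ lp (X s (k + 1)))
    (h3' : ∀ n, n ∈ lp (X false 0) ↔ n ∉ lp (X true 0))
    (h4 : ∀ s k, typ s k → ¬ typ s (k + 1) → ∀ n, n ∉ rp (X s k))
    (h5 : ∀ s k, ¬ typ s k → typ s (k + 1) → ∀ n, n ∈ rp (X s k))
    (h4' : typ false 0 → ¬ typ true 0 → ∀ n, n ∉ lp (X false 0))
    (h5' : ¬ typ false 0 → typ true 0 → ∀ n, n ∉ lp (X true 0)) : False := by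
  have ray : ∀ s, ((typ s 0 ∧ lp (X s 0) ∉ D.F) ∨ (¬ typ s 0 ∧ lp (X s 0) ∈ D.F)) → False :=
    fun s h => descent_ray D (X s) (typ s) (h1 s) (h2 s) (h3 s) (h4 s) (h5 s) h
  have hc : lp (X true 0) = (lp (X false 0))ᶜ := by
    ext n
    rw [mem_compl_iff, h3' n, not_not]
  by_cases ha : typ false 0 <;> by_cases hb : typ true 0
  · by_cases hF : lp (X false 0) ∈ D.F
    · refine ray true (Or.inl ⟨hb, ?_⟩)
      rw [hc]
      exact fun h => Ultrafilter.compl_mem_iff_notMem.1 h hF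
    · exact ray false (Or.inl ⟨ha, hF⟩)
  · refine ray false (Or.inl ⟨ha, ?_⟩)
    have he : lp (X false 0) = ∅ := by
      ext n; simp only [mem_empty_iff_false, iff_false]; exact h4' ha hb n
    rw [he]
    exact D.F.empty_notMem
  · refine ray true (Or.inl ⟨hb, ?_⟩)
    have he : lp (X true 0) = ∅ := by
      ext n; simp only [mem_empty_iff_false, iff_false]; exact h5' ha hb n
    rw [he]
    exact D.F.empty_notMem
  · by_cases hF : lp (X false 0) ∈ D.F
    · exact ray false (Or.inr ⟨ha, hF⟩)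
    · refine ray true (Or.inr ⟨hb, ?_⟩)
      rw [hc]
      exact Ultrafilter.compl_mem_iff_notMem.2 hF

end Vale.Agent.P068
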