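import Mathlib
import Vale.Agent.Lib.P068.Descent

/-!
Two direct sums on a common countable ground set, arranged along a two-way infinite path.
-/

namespace Vale.Agent.P068

open Set

/-- Colour of a vertex of the two-way infinite path. -/
def col (s : Bool) : ℕ → Bool
  | 0 => s
  | k + 1 => !(col s k)

/-- The common ground set: a countable set for every edge of the path. -/
abbrev Grd : Type := Option (Bool × ℕ) × ℕ

/-- The near edge of a vertex. -/
def near (s : Bool) : ℕ → Option (Bool × ℕ)
  | 0 => none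
  | k + 1 => some (s, k)

/-- The chart at a vertex. -/
def pt (s : Bool) (k : ℕ) : ℕ ⊕ ℕ → Grd
  | Sum.inl n => (near s k, n)
  | Sum.inr n => (some (s, k), n)

lemma near_eq_some {s : Bool} {k : ℕ} {t : Bool} {l : ℕ} (h : near s k = some (t, l)) :
    s = t ∧ k = l + 1 := by
  cases k with
  | zero => simp [near] at h
  | succ k =>
    simp only [near, Option.some.injEq, Prod.mk.injEq] at h
    exact ⟨h.1, by omega⟩

lemma near_eq_near {s t : Bool} {k l : ℕ} (h : near s k = near t l) (hc : col s k = col t l) :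
    s = t ∧ k = l := by
  cases k with
  | zero =>
    cases l with
    | zero => exact ⟨hc, rfl⟩
    | succ l => simp [near] at h
  | succ k =>
    cases l with
    | zero => simp [near] at h
    | succ l =>
      simp only [near, Option.some.injEq, Prod.mk.injEq] at h
      exact ⟨h.1, by omega⟩

lemma pt_inj {s t : Bool} {k l : ℕ} {x y : ℕ ⊕ ℕ} (h : pt s k x = pt t l y)
    (hc : col s k = col t l) : s = t ∧ k = l ∧ x = y := by
  rcases x with n | n <;> rcases y with m | m
  · simp only [pt, Prod.mk.injEq] at h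
    obtain ⟨h1, h2⟩ := near_eq_near h.1 hc
    exact ⟨h1, h2, by rw [h.2]⟩
  · simp only [pt, Prod.mk.injEq] at h
    obtain ⟨h1, h2⟩ := near_eq_some h.1
    subst h1 h2
    simp [col] at hc
  · simp only [pt, Prod.mk.injEq] at h
    obtain ⟨h1, h2⟩ := near_eq_some h.1.symm
    subst h1 h2
    simp [col] at hc
  · simp only [pt, Prod.mk.injEq, Option.some.injEq] at h
    exact ⟨h.1.1, h.1.2, by rw [h.2]⟩

lemma pt_surj (c : Bool) (p : Grd) : ∃ s k x, col s k = c ∧ pt s k x = p := by
  obtain ⟨o, n⟩ := p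
  cases o with
  | none => exact ⟨c, 0, Sum.inl n, rfl, rfl⟩
  | some v =>
    obtain ⟨s, k⟩ := v
    by_cases h : col s k = c
    · exact ⟨s, k, Sum.inr n, h, rfl⟩
    · refine ⟨s, k + 1, Sum.inl n, ?_, rfl⟩
      simp only [col]
      cases hh : col s k <;> cases c <;> simp_all

/-- Vertices of a colour. -/
abbrev Vx (c : Bool) : Type := {v : Bool × ℕ // col v.1 v.2 = c}

/-- The ground set as a disjoint union of charts of the vertices of one colour. -/
noncomputable def chartEquiv (c : Bool) : Vx c × (ℕ ⊕ ℕ) ≃ Grd :=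
  Equiv.ofBijective (fun q => pt q.1.1.1 q.1.1.2 q.2) (by
    constructor
    · rintro ⟨⟨⟨s, k⟩, hv⟩, x⟩ ⟨⟨⟨t, l⟩, hw⟩, y⟩ h
      obtain ⟨h1, h2, h3⟩ := pt_inj (s := s) (t := t) (k := k) (l := l) h (hv.trans hw.symm)
      subst h1 h2 h3
      rfl
    · intro p
      obtain ⟨s, k, x, h1, h2⟩ := pt_surj c p
      exact ⟨(⟨(s, k), h1⟩, x), h2⟩)

variable {α : Type} (θ : Grd ≃ α)

/-- The part of a set seen in a chart. -/
def chart (s : Bool) (k : ℕ) (A : Set α) : Set (ℕ ⊕ ℕ) := {x | θ (pt s k x) ∈ A}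

lemma chart_mono {s : Bool} {k : ℕ} {A B : Set α} (h : A ⊆ B) : chart θ s k A ⊆ chart θ s k B :=
  fun _ hx => h hx

lemma chart_compl (s : Bool) (k : ℕ) (A : Set α) : chart θ s k Aᶜ = (chart θ s k A)ᶜ := rfl

/-- Direct sum of copies of `W`, one for each vertex of colour `c`. -/
noncomputable def SumM (c : Bool) (W : Matroid (ℕ ⊕ ℕ)) : Matroid α :=
  (Matroid.sum' (fun _ : Vx c => W)).mapEquiv ((chartEquiv c).trans θ)

lemma sumM_ground (c : Bool) (W : Matroid (ℕ ⊕ ℕ)) (hW : W.E = univ) : (SumM θ c W).E = univ := by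
  unfold SumM
  rw [Matroid.mapEquiv_ground_eq, Matroid.sum'_ground_eq, hW]
  have : (⋃ i : Vx c, Prod.mk i '' (univ : Set (ℕ ⊕ ℕ))) = univ := by
    ext ⟨i, x⟩
    simp
  rw [this, image_univ]
  exact Equiv.range_eq_univ _

lemma sumM_indep (c : Bool) (W : Matroid (ℕ ⊕ ℕ)) (A : Set α) :
    (SumM θ c W).Indep A ↔ ∀ s k, col s k = c → W.Indep (chart θ s k A) := by
  unfold SumM
  rw [Matroid.mapEquiv_indep_iff, Matroid.sum'_indep_iff]
  have key : ∀ v : Vx c, Prod.mk v ⁻¹' (((chartEquiv c).trans θ).symm '' A) =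
      chart θ v.1.1 v.1.2 A := by
    intro v
    rw [Equiv.image_symm_eq_preimage]
    rfl
  constructor
  · intro h s k hc
    have := h ⟨(s, k), hc⟩
    rwa [key] at this
  · intro h v
    rw [key]
    exact h v.1.1 v.1.2 v.2

/-- If `e` is spanned by `J` but not in `J` then `J` is a base of the chart of `e`. -/
lemma isBase_chart {c : Bool} {W : Matroid (ℕ ⊕ ℕ)}
    (hswap : ∀ B x y, W.IsBase B → x ∈ B → y ∉ B → W.IsBase (insert y (B \ {x})))
    {J : Set α} (hJ : (SumM θ c W).Indep J) {s : Bool} {k : ℕ} (hc : col s k = c) {x : ℕ ⊕ ℕ}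
    (hx : θ (pt s k x) ∈ (SumM θ c W).closure J) (hxJ : θ (pt s k x) ∉ J) :
    W.IsBase (chart θ s k J) := by
  have hdep := (hJ.mem_closure_iff_of_notMem hxJ).1 hx
  have hnot : ¬ (SumM θ c W).Indep (insert (θ (pt s k x)) J) := hdep.not_indep
  rw [sumM_indep] at hnot
  push Not at hnot
  obtain ⟨t, l, hc', hnot⟩ := hnot
  have hJ' := (sumM_indep θ c W J).1 hJ
  by_cases hv : s = t ∧ k = l
  · obtain ⟨rfl, rfl⟩ := hv
    have e : chart θ s k (insert (θ (pt s k x)) J) = insert x (chart θ s k J) := by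
      ext y
      simp only [chart, mem_ofPred_eq, mem_insert_iff, EmbeddingLike.apply_eq_iff_eq]
      constructor
      · rintro (h | h)
        · exact Or.inl (pt_inj h rfl).2.2
        · exact Or.inr h
      · rintro (h | h)
        · exact Or.inl (by rw [h])
        · exact Or.inr h
    rw [e] at hnot
    obtain ⟨B, hB, hKB⟩ := (hJ' s k hc).exists_isBase_superset
    by_cases hKB' : chart θ s k J = B
    · rw [hKB']; exact hB
    · exfalso
      obtain ⟨y, hyB, hyK⟩ := exists_of_ssubset (hKB.ssubset_of_ne hKB')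
      by_cases hxB : x ∈ B
      · exact hnot (hB.indep.subset (insert_subset hxB hKB))
      · apply hnot
        refine (hswap B y x hB hyB hxB).indep.subset ?_
        apply insert_subset_insert
        intro z hz
        refine ⟨hKB hz, ?_⟩
        rintro rfl
        exact hyK hz
  · exfalso
    have e : chart θ t l (insert (θ (pt s k x)) J) = chart θ t l J := by
      ext y
      simp only [chart, mem_ofPred_eq, mem_insert_iff, EmbeddingLike.apply_eq_iff_eq]
      constructor
      · rintro (h | h)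
        · exfalso
          obtain ⟨h1, h2, _⟩ := pt_inj h (hc'.trans hc.symm)
          exact hv ⟨h1.symm, h2.symm⟩
        · exact h
      · exact Or.inr
    rw [e] at hnot
    exact hnot (hJ' t l hc')

end Vale.Agent.P068
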