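import Mathlib
import Vale.Agent.Lib.P068.Sums

/-!
The two direct sums do not satisfy intersection; passing from packing/covering to intersection.
-/

namespace Vale.Agent.P068

open Set
open scoped Matroid

variable {α : Type}

/-- From a packing/covering partition for `M` and `N` to intersection for `M` and the dual
of `N`. -/
theorem inter_of_packingCovering {M N : Matroid α} (hM : M.E = univ) (hN : N.E = univ)
    {P C S₁ S₂ I₁ I₂ : Set α} (hPC : Disjoint P C) (hu : P ∪ C = univ)
    (hS₁ : S₁ ⊆ P) (hS₂ : S₂ ⊆ P) (hS : Disjoint S₁ S₂)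
    (hcl₁ : (M ↾ P).closure S₁ = P) (hcl₂ : (N ↾ P).closure S₂ = P)
    (hi₁ : (M✶ ↾ C)✶.Indep I₁) (hi₂ : (N✶ ↾ C)✶.Indep I₂) (hI : I₁ ∪ I₂ = C) :
    ∃ J JM JN : Set α, M.Indep J ∧ N✶.Indep J ∧ Disjoint JM JN ∧ JM ∪ JN = J ∧
      M.closure JM ∪ N✶.closure JN = univ := by
  have hC : C = univ \ P := by
    rw [← hu, union_sdiff_left]; exact hPC.sdiff_eq_right.symm
  have hP : P = univ \ C := by
    rw [← hu, union_sdiff_right]; exact hPC.sdiff_eq_left.symm
  have hI₁C : I₁ ⊆ C := hI ▸ subset_union_left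
  have hI₂C : I₂ ⊆ C := hI ▸ subset_union_right
  -- a base of `M` restricted to `P`
  obtain ⟨T, hT⟩ := (M ↾ P).exists_isBasis S₁ (by rw [Matroid.restrict_ground_eq]; exact hS₁)
  have hTS : T ⊆ S₁ := hT.subset
  have hTb : M.IsBasis T P := by
    rw [← Matroid.isBase_restrict_iff (by rw [hM]; exact subset_univ P)]
    rw [hT.indep.isBase_iff_ground_subset_closure, hT.closure_eq_closure, hcl₁,
      Matroid.restrict_ground_eq]
  -- `T` is independent in the contraction of the dual of `N`
  have hTi : (N✶ ／ C).Indep T := by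
    have h1 : (N ↾ P).Spanning S₂ := by
      rw [Matroid.spanning_iff_closure_eq (by rw [Matroid.restrict_ground_eq]; exact hS₂), hcl₂,
        Matroid.restrict_ground_eq]
    have h2 : (N ↾ P)✶.Indep (P \ S₂) := by
      have := (Matroid.spanning_iff_compl_coindep
        (by rw [Matroid.restrict_ground_eq]; exact hS₂)).1 h1
      rwa [Matroid.restrict_ground_eq] at this
    have h3 : N ↾ P = N ＼ C := by
      rw [Matroid.delete_eq_restrict, hN, ← hP]
    rw [h3, Matroid.dual_delete] at h2
    refine h2.subset ?_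
    intro x hx
    exact ⟨hS₁ (hTS hx), fun h => Set.disjoint_left.1 hS (hTS hx) h⟩
  -- a base of the dual of `N` restricted to `C`
  have hsp : (N✶ ↾ C).Spanning (C \ I₂) := by
    rw [Matroid.spanning_iff_compl_coindep (by rw [Matroid.restrict_ground_eq]; exact sdiff_subset)]
    rw [Matroid.restrict_ground_eq, sdiff_sdiff_cancel_left hI₂C]
    exact hi₂
  obtain ⟨K, hK, hKC⟩ := hsp.exists_isBase_subset
  have hKb : N✶.IsBasis K C := by
    rwa [Matroid.isBase_restrict_iff (by rw [Matroid.dual_ground, hN]; exact subset_univ C)] at hK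
  have hKI : K ⊆ I₁ := by
    intro x hx
    obtain ⟨h1, h2⟩ := hKC hx
    rw [← hI] at h1
    exact h1.resolve_right h2
  have hKi : (M ／ P).Indep K := by
    have h3 : M✶ ↾ C = M✶ ＼ P := by
      rw [Matroid.delete_eq_restrict, Matroid.dual_ground, hM, ← hC]
    rw [h3, Matroid.dual_delete_dual] at hi₁
    exact hi₁.subset hKI
  refine ⟨T ∪ K, T, K, ?_, ?_, ?_, rfl, ?_⟩
  · have := (hTb.contract_indep_iff.1 hKi).1
    rwa [union_comm]
  · exact (hKb.contract_indep_iff.1 hTi).1
  · exact hPC.mono (hTS.trans hS₁) hKb.subset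
  · refine eq_univ_of_univ_subset ?_
    rw [← hu]
    exact union_subset_union hTb.subset_closure hKb.subset_closure

/-- The two direct sums do not satisfy intersection. -/
theorem no_inter (D : WildData) (θ : Grd ≃ α) :
    ¬ ∃ J JM JN : Set α, (SumM θ false D.U).Indep J ∧ (SumM θ true D.U✶).Indep J ∧
      Disjoint JM JN ∧ JM ∪ JN = J ∧
      (SumM θ false D.U).closure JM ∪ (SumM θ true D.U✶).closure JN = univ := by
  classical
  rintro ⟨J, JM, JN, hJM, hJN, hdis, hun, hcl⟩
  have hU : ∀ X, X ⊆ D.U.E := fun X => by rw [D.ground]; exact subset_univ X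
  have hswap' : ∀ B x y, D.U✶.IsBase B → x ∈ B → y ∉ B → D.U✶.IsBase (insert y (B \ {x})) := by
    intro B x y hB hx hy
    rw [Matroid.dual_isBase_iff (hU _), D.ground] at hB ⊢
    have hxy : x ≠ y := fun h => hy (h ▸ hx)
    have := D.swap (univ \ B) y x hB ⟨mem_univ _, hy⟩ (fun h => h.2 hx)
    convert this using 1
    ext z
    simp only [mem_sdiff, mem_univ, true_and, mem_insert_iff, mem_singleton_iff, not_or, not_and,
      not_not]
    constructor
    · rintro ⟨h1, h2⟩
      by_cases hz : z ∈ B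
      · exact Or.inl (h2 hz)
      · exact Or.inr ⟨hz, h1⟩
    · rintro (h | ⟨h1, h2⟩)
      · exact ⟨fun h' => hxy (h ▸ h'), fun _ => h⟩
      · exact ⟨h2, fun h' => absurd h' h1⟩
  have hMi := (sumM_indep θ false D.U J).1 hJM
  have hNi := (sumM_indep θ true D.U✶ J).1 hJN
  have hJMJ : JM ⊆ J := hun ▸ subset_union_left
  have hJNJ : JN ⊆ J := hun ▸ subset_union_right
  -- `(A)`: if both ends of an edge are spanned then the edge is disjoint from `J`
  have factA : ∀ s k t l x y, col s k = false → col t l = true → pt s k x = pt t l y →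
      D.U.IsBase (chart θ s k JM) → D.U✶.IsBase (chart θ t l JN) → θ (pt s k x) ∉ J := by
    intro s k t l x y hc hc' hp hb hb' hmem
    have e1 : chart θ s k JM = chart θ s k J := hb.eq_of_subset_indep (hMi s k hc)
      (chart_mono θ hJMJ)
    have e2 : chart θ t l JN = chart θ t l J := hb'.eq_of_subset_indep (hNi t l hc')
      (chart_mono θ hJNJ)
    have m1 : θ (pt s k x) ∈ JM := by
      have : x ∈ chart θ s k JM := by rw [e1]; exact hmem
      exact this
    have m2 : θ (pt t l y) ∈ JN := by
      have : y ∈ chart θ t l JN := by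
        rw [e2]
        show θ (pt t l y) ∈ J
        rw [← hp]; exact hmem
      exact this
    rw [← hp] at m2
    exact Set.disjoint_left.1 hdis m1 m2
  -- `(B)`: if none of the ends is spanned then the edge is contained in `J`
  have factB : ∀ s k t l x y, col s k = false → col t l = true → pt s k x = pt t l y →
      ¬ D.U.IsBase (chart θ s k JM) → ¬ D.U✶.IsBase (chart θ t l JN) → θ (pt s k x) ∈ J := by
    intro s k t l x y hc hc' hp hb hb'
    by_contra hmem
    have hcov : θ (pt s k x) ∈ (SumM θ false D.U).closure JM ∪ (SumM θ true D.U✶).closure JN := by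
      rw [hcl]; exact mem_univ _
    rcases hcov with h | h
    · exact hb (isBase_chart θ D.swap (hJM.subset hJMJ) hc h (fun h' => hmem (hJMJ h')))
    · rw [hp] at h hmem
      exact hb' (isBase_chart θ hswap' (hJN.subset hJNJ) hc' h (fun h' => hmem (hJNJ h')))
  -- the data for the descent lemma
  let typ : Bool → ℕ → Prop := fun s k =>
    if col s k = false then D.U.IsBase (chart θ s k JM) else ¬ D.U✶.IsBase (chart θ s k JN)
  let X : Bool → ℕ → Set (ℕ ⊕ ℕ) := fun s k =>
    if col s k = false then chart θ s k J else chart θ s k Jᶜ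
  have typ_f : ∀ s k, col s k = false → (typ s k ↔ D.U.IsBase (chart θ s k JM)) := by
    intro s k h; simp only [typ, h, if_true]
  have typ_t : ∀ s k, col s k = true → (typ s k ↔ ¬ D.U✶.IsBase (chart θ s k JN)) := by
    intro s k h; simp [typ, h]
  have X_f : ∀ s k, col s k = false → X s k = chart θ s k J := by
    intro s k h; simp only [X, h, if_true]
  have X_t : ∀ s k, col s k = true → X s k = chart θ s k Jᶜ := by
    intro s k h; simp [X, h]
  have colsucc : ∀ s k, col s (k + 1) = !(col s k) := fun s k => rfl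
  refine descent D X typ ?_ ?_ ?_ ?_ ?_ ?_ ?_ ?_
  · intro s k h
    cases hc : col s k
    · rw [typ_f s k hc] at h
      exact ⟨_, h, by rw [X_f s k hc]; exact chart_mono θ hJMJ⟩
    · obtain ⟨B, hB, hJB⟩ := (hNi s k hc).exists_isBase_superset
      rw [Matroid.dual_isBase_iff (hU _), D.ground] at hB
      refine ⟨_, hB, ?_⟩
      rw [X_t s k hc, chart_compl]
      intro z hz hz'
      exact hz.2 (hJB hz')
  · intro s k h
    cases hc : col s k
    · obtain ⟨B, hB, hJB⟩ := (hMi s k hc).exists_isBase_superset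
      exact ⟨B, hB, by rw [X_f s k hc]; exact hJB⟩
    · rw [typ_t s k hc, not_not, Matroid.dual_isBase_iff (hU _), D.ground] at h
      refine ⟨_, h, ?_⟩
      rw [X_t s k hc, chart_compl]
      intro z hz
      exact ⟨mem_univ _, fun h' => hz (chart_mono θ hJNJ h')⟩
  · intro s k n
    have hp : pt s k (Sum.inr n) = pt s (k + 1) (Sum.inl n) := rfl
    cases hc : col s k
    · have hc' : col s (k + 1) = true := by rw [colsucc, hc]; rfl
      rw [X_f s k hc, X_t s (k + 1) hc']
      show θ (pt s k (Sum.inr n)) ∈ J ↔ ¬ (θ (pt s (k + 1) (Sum.inl n)) ∈ Jᶜ)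
      rw [hp, mem_compl_iff, not_not]
    · have hc' : col s (k + 1) = false := by rw [colsucc, hc]; rfl
      rw [X_t s k hc, X_f s (k + 1) hc']
      show θ (pt s k (Sum.inr n)) ∈ Jᶜ ↔ ¬ (θ (pt s (k + 1) (Sum.inl n)) ∈ J)
      rw [hp, mem_compl_iff]
  · intro n
    rw [X_f false 0 rfl, X_t true 0 rfl]
    show θ (pt false 0 (Sum.inl n)) ∈ J ↔ ¬ (θ (pt true 0 (Sum.inl n)) ∈ Jᶜ)
    have hp : pt false 0 (Sum.inl n) = pt true 0 (Sum.inl n) := rfl
    rw [hp, mem_compl_iff, not_not]
  · intro s k h h' n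
    have hp : pt s k (Sum.inr n) = pt s (k + 1) (Sum.inl n) := rfl
    cases hc : col s k
    · have hc' : col s (k + 1) = true := by rw [colsucc, hc]; rfl
      rw [typ_f s k hc] at h
      rw [typ_t s (k + 1) hc', not_not] at h'
      rw [X_f s k hc]
      exact factA s k s (k + 1) _ _ hc hc' hp h h'
    · have hc' : col s (k + 1) = false := by rw [colsucc, hc]; rfl
      rw [typ_t s k hc] at h
      rw [typ_f s (k + 1) hc'] at h'
      rw [X_t s k hc]
      show ¬ (θ (pt s k (Sum.inr n)) ∈ Jᶜ)
      rw [mem_compl_iff, not_not, hp]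
      exact factB s (k + 1) s k _ _ hc' hc hp.symm h' h
  · intro s k h h' n
    have hp : pt s k (Sum.inr n) = pt s (k + 1) (Sum.inl n) := rfl
    cases hc : col s k
    · have hc' : col s (k + 1) = true := by rw [colsucc, hc]; rfl
      rw [typ_f s k hc] at h
      rw [typ_t s (k + 1) hc'] at h'
      rw [X_f s k hc]
      exact factB s k s (k + 1) _ _ hc hc' hp h h'
    · have hc' : col s (k + 1) = false := by rw [colsucc, hc]; rfl
      rw [typ_t s k hc, not_not] at h
      rw [typ_f s (k + 1) hc'] at h'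
      rw [X_t s k hc]
      show θ (pt s k (Sum.inr n)) ∈ Jᶜ
      rw [mem_compl_iff, hp]
      exact factA s (k + 1) s k _ _ hc' hc hp.symm h' h
  · intro h h' n
    have hp : pt false 0 (Sum.inl n) = pt true 0 (Sum.inl n) := rfl
    rw [typ_f false 0 rfl] at h
    rw [typ_t true 0 rfl, not_not] at h'
    rw [X_f false 0 rfl]
    exact factA false 0 true 0 _ _ rfl rfl hp h h'
  · intro h h' n
    have hp : pt false 0 (Sum.inl n) = pt true 0 (Sum.inl n) := rfl
    rw [typ_f false 0 rfl] at h
    rw [typ_t true 0 rfl] at h'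
    rw [X_t true 0 rfl]
    show ¬ (θ (pt true 0 (Sum.inl n)) ∈ Jᶜ)
    rw [mem_compl_iff, not_not, ← hp]
    exact factB false 0 true 0 _ _ rfl rfl hp h h'

end Vale.Agent.P068
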