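import Mathlib
import Vale.Agent.Lib.P068.Baire

/-!
The rank, assuming only the covering property of the category ideal.
-/

namespace Vale.Agent.P068

open Set Cardinal

/-- Intersection of a finite list of members. -/
def lint (G : Set (Set ℕ)) (l : List G) : Set ℕ := {x | ∀ X ∈ l, x ∈ X.1}

lemma lint_mem {G : Set (Set ℕ)} (hG : ∀ X ∈ G, X ∈ UF) (l : List G) : lint G l ∈ UF := by
  induction l with
  | nil =>
    have : lint G [] = Set.univ := by
      ext x; simp [lint]
    rw [this]; exact Filter.univ_mem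
  | cons a l ih =>
    have : lint G (a :: l) = a.1 ∩ lint G l := by
      ext x; simp [lint]
    rw [this]
    exact Filter.inter_mem (hG a.1 a.2) ih

lemma exists_block {F : Set ℕ} (hF : ¬ Small F) (k N : ℕ) :
    ∃ n, N < n ∧ k ≤ (F ∩ blk n).ncard := by
  unfold Small at hF
  push Not at hF
  obtain ⟨n, hn⟩ := hF (k + (2 * N + 1))
  refine ⟨n, ?_, by omega⟩
  have h1 : (F ∩ blk n).ncard ≤ (blk n).ncard :=
    ncard_le_ncard inter_subset_right (blk_finite n)
  rw [blk_ncard] at h1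
  omega

lemma le_of_mem_blk {n m : ℕ} (h : m ∈ blk n) : n ≤ m := by
  have h' : Nat.sqrt m = n := h
  rw [← h']
  exact Nat.sqrt_le_self m

lemma exists_bound (n : ℕ) : ∃ M, ∀ m ∈ blk n, m < M := by
  obtain ⟨M, hM⟩ := (blk_finite n).bddAbove
  exact ⟨M + 1, fun m hm => Nat.lt_succ_of_le (hM hm)⟩

/-- Fewer than continuum many members of the ultrafilter do not generate it together with the
co-small sets. -/
lemma exists_not_generatedC (hcov : CovCat) (G : Set (Set ℕ)) (hG : #G < continuum)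
    (hGU : ∀ X ∈ G, X ∈ UF) :
    ∃ A ∈ UF, A ∉ Filter.generate ({X | Small Xᶜ} ∪ G) := by
  classical
  have hns : ∀ l : List G, ¬ Small (lint G l) := fun l h => UF_not_small h (lint_mem hGU l)
  let A : (ℕ → ℕ) → Set ℕ := fun f => {m | f m = 0}
  let O1 : List G × ℕ → Set (ℕ → ℕ) := fun p =>
    {f | ∃ n, p.2 ≤ ((lint G p.1 ∩ A f) ∩ blk n).ncard}
  let O2 : List G × ℕ → Set (ℕ → ℕ) := fun p =>
    {f | ∃ n, p.2 ≤ ((lint G p.1 \ A f) ∩ blk n).ncard}
  have hcard : #(List G × ℕ) < continuum := by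
    rw [mk_prod, lift_id, lift_id, mk_nat]
    refine mul_lt_of_lt aleph0_le_continuum ?_ aleph0_lt_continuum
    exact (mk_list_le_max G).trans_lt (max_lt aleph0_lt_continuum hG)
  have hO : #(range O1 ∪ range O2 : Set (Set (ℕ → ℕ))) < continuum := by
    refine (mk_union_le _ _).trans_lt ?_
    exact add_lt_of_lt aleph0_le_continuum (mk_range_le.trans_lt hcard)
      (mk_range_le.trans_lt hcard)
  obtain ⟨f, hf⟩ := hcov (range O1 ∪ range O2) hO (by
    rintro V (⟨⟨l, k⟩, rfl⟩ | ⟨⟨l, k⟩, rfl⟩)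
    · constructor
      · apply isOpen_of_modify
        rintro f ⟨n, hn⟩
        obtain ⟨M, hM⟩ := exists_bound n
        refine ⟨M, fun g hg => ⟨n, ?_⟩⟩
        have e : (lint G l ∩ A g) ∩ blk n = (lint G l ∩ A f) ∩ blk n := by
          ext m
          constructor
          · rintro ⟨⟨h1, h2⟩, h3⟩
            refine ⟨⟨h1, ?_⟩, h3⟩
            show f m = 0
            rw [← hg m (hM m h3)]; exact h2
          · rintro ⟨⟨h1, h2⟩, h3⟩
            refine ⟨⟨h1, ?_⟩, h3⟩
            show g m = 0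
            rw [hg m (hM m h3)]; exact h2
        show k ≤ _
        rw [e]; exact hn
      · apply dense_of_modify
        intro f N
        obtain ⟨n, hn, hk⟩ := exists_block (hns l) k N
        refine ⟨fun m => if m < N then f m else 0, ⟨n, ?_⟩, fun i hi => by simp [hi]⟩
        refine hk.trans (ncard_le_ncard ?_ ((blk_finite n).subset inter_subset_right))
        rintro m ⟨h1, h2⟩
        refine ⟨⟨h1, ?_⟩, h2⟩
        have := le_of_mem_blk h2
        have h3 : ¬ m < N := by omega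
        show (if m < N then f m else 0) = 0
        rw [if_neg h3]
    · constructor
      · apply isOpen_of_modify
        rintro f ⟨n, hn⟩
        obtain ⟨M, hM⟩ := exists_bound n
        refine ⟨M, fun g hg => ⟨n, ?_⟩⟩
        have e : (lint G l \ A g) ∩ blk n = (lint G l \ A f) ∩ blk n := by
          ext m
          constructor
          · rintro ⟨⟨h1, h2⟩, h3⟩
            refine ⟨⟨h1, fun h4 => h2 ?_⟩, h3⟩
            show g m = 0
            rw [hg m (hM m h3)]; exact h4
          · rintro ⟨⟨h1, h2⟩, h3⟩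
            refine ⟨⟨h1, fun h4 => h2 ?_⟩, h3⟩
            show f m = 0
            rw [← hg m (hM m h3)]; exact h4
        show k ≤ _
        rw [e]; exact hn
      · apply dense_of_modify
        intro f N
        obtain ⟨n, hn, hk⟩ := exists_block (hns l) k N
        refine ⟨fun m => if m < N then f m else 1, ⟨n, ?_⟩, fun i hi => by simp [hi]⟩
        refine hk.trans (ncard_le_ncard ?_ ((blk_finite n).subset inter_subset_right))
        rintro m ⟨h1, h2⟩
        refine ⟨⟨h1, ?_⟩, h2⟩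
        have := le_of_mem_blk h2
        have h3 : ¬ m < N := by omega
        show ¬ ((if m < N then f m else 1) = 0)
        rw [if_neg h3]
        exact one_ne_zero)
  have hf1 : ∀ l k, ∃ n, k ≤ ((lint G l ∩ A f) ∩ blk n).ncard := fun l k =>
    hf (O1 (l, k)) (Or.inl ⟨_, rfl⟩)
  have hf2 : ∀ l k, ∃ n, k ≤ ((lint G l \ A f) ∩ blk n).ncard := fun l k =>
    hf (O2 (l, k)) (Or.inr ⟨_, rfl⟩)
  have hgen : ∀ H, H ∈ Filter.generate ({X | Small Xᶜ} ∪ G) → ∃ l, Small (lint G l \ H) := by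
    intro H hH
    have hH' : Filter.GenerateSets ({X | Small Xᶜ} ∪ G) H := hH
    induction hH' with
    | basic h =>
      rename_i s
      rcases h with h | h
      · exact ⟨[], Small.subset h (fun x hx => hx.2)⟩
      · refine ⟨[⟨s, h⟩], ?_⟩
        have : lint G [⟨s, h⟩] \ s = ∅ := by
          ext x; simp [lint]
        rw [this]; exact Small.of_finite finite_empty
    | univ =>
      refine ⟨[], ?_⟩
      rw [sdiff_univ]; exact Small.of_finite finite_empty
    | superset hs hst ih =>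
      obtain ⟨k, hk⟩ := ih hs
      exact ⟨k, hk.subset (sdiff_subset_sdiff_right hst)⟩
    | inter hs ht ih1 ih2 =>
      rename_i s t
      obtain ⟨k, hk⟩ := ih1 hs
      obtain ⟨l, hl⟩ := ih2 ht
      refine ⟨k ++ l, (hk.union hl).subset ?_⟩
      rintro x ⟨hx, hx'⟩
      have hx1 : x ∈ lint G k := fun X hX => hx X (List.mem_append_left l hX)
      have hx2 : x ∈ lint G l := fun X hX => hx X (List.mem_append_right k hX)
      by_cases hxs : x ∈ s ∧ x ∈ t
      · exact absurd hxs hx'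
      · rcases not_and_or.1 hxs with h | h
        · exact Or.inl ⟨hx1, h⟩
        · exact Or.inr ⟨hx2, h⟩
  have hnA : A f ∉ Filter.generate ({X | Small Xᶜ} ∪ G) := by
    intro hmem
    obtain ⟨l, b, hb⟩ := hgen (A f) hmem
    obtain ⟨n, hn⟩ := hf2 l (b + 1)
    have := hb n
    omega
  have hnAc : (A f)ᶜ ∉ Filter.generate ({X | Small Xᶜ} ∪ G) := by
    intro hmem
    obtain ⟨l, b, hb⟩ := hgen (A f)ᶜ hmem
    have e : lint G l \ (A f)ᶜ = lint G l ∩ A f := by
      ext x; simp only [mem_sdiff, mem_compl_iff, mem_inter_iff, not_not]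
    rw [e] at hb
    obtain ⟨n, hn⟩ := hf1 l (b + 1)
    have := hb n
    omega
  by_cases hAU : A f ∈ UF
  · exact ⟨A f, hAU, hnA⟩
  · exact ⟨(A f)ᶜ, Ultrafilter.compl_mem_iff_notMem.2 hAU, hnAc⟩

section Chain

variable {T : Type} [LinearOrder T] [WellFoundedLT T] (s : T → Set ℕ)

lemma HF_neC (hcov : CovCat) (hT : ∀ t : T, #(Iio t) < continuum) (δ : T) :
    ∃ A ∈ UF, A ∉ HF s δ := by
  refine exists_not_generatedC hcov (gens s δ) ?_ (fun X hX => hX.1)
  have hsub : gens s δ ⊆ s '' Iio δ := by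
    rintro X ⟨_, t, ht, rfl⟩
    exact ⟨t, ht, rfl⟩
  exact ((mk_le_mk_of_subset hsub).trans mk_image_le).trans_lt (hT δ)

variable [NoMaxOrder T] (hs : Function.Surjective s)

lemma exists_rk_gtC (hne : ∀ δ : T, ∃ A ∈ UF, A ∉ HF s δ) {I X : Set ℕ} (hI : I ∉ UF)
    (hX : X ∈ UF) (hIX : I ⊆ X) (ε : T) : ∃ B ∈ UF, I ⊆ B ∧ B ⊆ X ∧ ε < rk s hs B := by
  set δ := max ε (rk s hs I) with hδ
  obtain ⟨A, hA, hA'⟩ := hne δ
  have hB : I ∪ (A ∩ X) ∈ UF :=
    Filter.mem_of_superset (Filter.inter_mem hA hX) subset_union_right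
  refine ⟨I ∪ (A ∩ X), hB, subset_union_left, union_subset hIX inter_subset_right, ?_⟩
  refine (le_max_left ε (rk s hs I)).trans_lt ?_
  rw [← hδ]
  by_contra hcon
  apply hA'
  have h1 : I ∪ (A ∩ X) ∈ HF s δ := HF_mono s (not_lt.1 hcon) (rk_mem_of_mem s hs hB)
  have h2 : Iᶜ ∈ HF s δ := by
    rcases rk_mem s hs I with h | h
    · exact absurd (HF_sub s h) hI
    · exact HF_mono s (le_max_right _ _) h
  refine Filter.mem_of_superset (Filter.inter_mem h1 h2) ?_
  rintro x ⟨hx | hx, hx'⟩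
  · exact absurd hx hx'
  · exact hx.1

lemma exists_rk_gtC' (hne : ∀ δ : T, ∃ A ∈ UF, A ∉ HF s δ) {I X : Set ℕ} (hI : I ∉ UF)
    (hX : X ∈ UF) (hIX : I ⊆ X) (ε : T) : ∃ B, B ∉ UF ∧ I ⊆ B ∧ B ⊆ X ∧ ε < rk s hs B := by
  obtain ⟨B, hB, h1, h2, h3⟩ := exists_rk_gtC s hs hne (I := Xᶜ) (X := Iᶜ)
    (fun h => Ultrafilter.compl_mem_iff_notMem.1 h hX)
    (Ultrafilter.compl_mem_iff_notMem.2 hI) (compl_subset_compl.2 hIX) ε
  refine ⟨Bᶜ, fun h => Ultrafilter.compl_mem_iff_notMem.1 h hB, ?_, ?_, ?_⟩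
  · rwa [subset_compl_comm]
  · rwa [compl_subset_comm]
  · rwa [rk_compl]

end Chain

end Vale.Agent.P068
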