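import Mathlib
import Vale.Agent.Lib.P068.NoInter

/-!
The sums are direct sums of countably many uniform matroids.
-/

namespace Vale.Agent.P068

open Set
open scoped Matroid

variable {α : Type} (θ : Grd ≃ α)

/-- The ground set of the summand at a vertex. -/
def blkSet (s : Bool) (k : ℕ) : Set α := range (fun x => θ (pt s k x))

lemma chart_inter_same (s : Bool) (k : ℕ) (X : Set α) :
    chart θ s k (X ∩ blkSet θ s k) = chart θ s k X := by
  ext x
  exact ⟨fun h => h.1, fun h => ⟨h, ⟨x, rfl⟩⟩⟩

lemma chart_inter_diff {s t : Bool} {k l : ℕ} (hc : col s k = col t l) (h : ¬ (s = t ∧ k = l))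
    (X : Set α) : chart θ s k (X ∩ blkSet θ t l) = ∅ := by
  ext x
  simp only [mem_empty_iff_false, iff_false]
  rintro ⟨_, y, hy⟩
  obtain ⟨h1, h2, _⟩ := pt_inj (θ.injective hy) hc.symm
  exact h ⟨h1.symm, h2.symm⟩

lemma sumM_indep_inter {c : Bool} {W : Matroid (ℕ ⊕ ℕ)} {s : Bool} {k : ℕ} (hc : col s k = c)
    (X : Set α) : (SumM θ c W).Indep (X ∩ blkSet θ s k) ↔ W.Indep (chart θ s k X) := by
  rw [sumM_indep]
  constructor
  · intro h
    have := h s k hc
    rwa [chart_inter_same] at this
  · intro h t l hc'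
    by_cases hv : t = s ∧ l = k
    · obtain ⟨rfl, rfl⟩ := hv
      rwa [chart_inter_same]
    · rw [chart_inter_diff θ (hc'.trans hc.symm) hv]
      exact W.empty_indep

theorem sumM_countable_uniform (c : Bool) (W : Matroid (ℕ ⊕ ℕ)) (hW : W.E = univ)
    (hunif : ∀ X, W.Indep X ∨ ∃ B, W.IsBase B ∧ B ⊆ X) :
    ∃ (ι : Type) (V : ι → Matroid α) (h : Pairwise (Function.onFun Disjoint fun i => (V i).E)),
      Countable ι ∧ SumM θ c W = Matroid.disjointSigma V h ∧
        ∀ i, ∀ X, X ⊆ (V i).E → (V i).Indep X ∨ (V i).Spanning X := by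
  classical
  let V : Vx c → Matroid α := fun v => (SumM θ c W) ↾ (blkSet θ v.1.1 v.1.2)
  have hE : (SumM θ c W).E = univ := sumM_ground θ c W hW
  have hVE : ∀ v, (V v).E = blkSet θ v.1.1 v.1.2 := fun v => rfl
  have hd : Pairwise (Function.onFun Disjoint fun i => (V i).E) := by
    rintro ⟨⟨s, k⟩, hv⟩ ⟨⟨t, l⟩, hw⟩ hne
    show Disjoint (blkSet θ s k) (blkSet θ t l)
    rw [Set.disjoint_left]
    rintro _ ⟨x, rfl⟩ ⟨y, hy⟩
    obtain ⟨h1, h2, _⟩ := pt_inj (θ.injective hy) (hw.trans hv.symm)
    apply hne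
    subst h1 h2
    rfl
  have hcover : (⋃ i, (V i).E) = univ := by
    refine eq_univ_of_forall (fun p => ?_)
    obtain ⟨s, k, x, h1, h2⟩ := pt_surj c (θ.symm p)
    refine mem_iUnion.2 ⟨⟨(s, k), h1⟩, ⟨x, ?_⟩⟩
    show θ (pt s k x) = p
    rw [h2, Equiv.apply_symm_apply]
  refine ⟨Vx c, V, hd, inferInstance, ?_, ?_⟩
  · refine Matroid.ext_indep ?_ ?_
    · rw [Matroid.disjointSigma_ground_eq, hcover, hE]
    · intro X _
      rw [Matroid.disjointSigma_indep_iff, hcover, and_iff_left (subset_univ X)]
      constructor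
      · rintro h ⟨⟨s, k⟩, hv⟩
        rw [hVE, Matroid.restrict_indep_iff]
        exact ⟨h.subset inter_subset_left, inter_subset_right⟩
      · intro h
        rw [sumM_indep]
        intro s k hc
        have := h ⟨(s, k), hc⟩
        rw [hVE, Matroid.restrict_indep_iff] at this
        exact (sumM_indep_inter θ hc X).1 this.1
  · rintro ⟨⟨s, k⟩, hv⟩ X hX
    have hX' : X ⊆ blkSet θ s k := hX
    have hXe : X ∩ blkSet θ s k = X := inter_eq_left.2 hX'
    have hi : ∀ Z, Z ⊆ blkSet θ s k → ((SumM θ c W).Indep Z ↔ W.Indep (chart θ s k Z)) := by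
      intro Z hZ
      have := sumM_indep_inter θ (W := W) hv Z
      rwa [inter_eq_left.2 hZ] at this
    rcases hunif (chart θ s k X) with h | ⟨B, hB, hBX⟩
    · left
      rw [Matroid.restrict_indep_iff]
      exact ⟨(hi X hX').2 h, hX'⟩
    · right
      have hsub : (fun x => θ (pt s k x)) '' B ⊆ X := by
        rintro _ ⟨x, hx, rfl⟩
        exact hBX hx
      have hchB : chart θ s k ((fun x => θ (pt s k x)) '' B) = B := by
        ext x
        constructor
        · rintro ⟨y, hy, hyx⟩
          have := (pt_inj (θ.injective hyx) rfl).2.2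
          rwa [← this]
        · intro hx
          exact ⟨x, hx, rfl⟩
      have hbas : (SumM θ c W).IsBasis ((fun x => θ (pt s k x)) '' B) (blkSet θ s k) := by
        have hBi : (SumM θ c W).Indep ((fun x => θ (pt s k x)) '' B) := by
          rw [hi _ (hsub.trans hX'), hchB]
          exact hB.indep
        refine hBi.isBasis_of_forall_insert (hsub.trans hX') ?_
        rintro _ ⟨⟨x, rfl⟩, hx⟩
        rw [Matroid.dep_iff, hE]
        refine ⟨?_, subset_univ _⟩
        rw [hi _ (insert_subset ⟨x, rfl⟩ (hsub.trans hX'))]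
        have e : chart θ s k (insert (θ (pt s k x)) ((fun x => θ (pt s k x)) '' B)) =
            insert x B := by
          ext y
          constructor
          · rintro (h | h)
            · exact Or.inl (pt_inj (θ.injective h) rfl).2.2
            · right
              have : y ∈ chart θ s k ((fun x => θ (pt s k x)) '' B) := h
              rwa [hchB] at this
          · rintro (rfl | h)
            · exact Or.inl rfl
            · exact Or.inr ⟨y, h, rfl⟩
        rw [e]
        intro hcon
        exact hx ⟨x, hB.mem_of_insert_indep hcon, rfl⟩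
      have hb : ((SumM θ c W) ↾ (blkSet θ s k)).IsBase ((fun x => θ (pt s k x)) '' B) := by
        rw [Matroid.isBase_restrict_iff (by rw [hE]; exact subset_univ _)]
        exact hbas
      exact hb.spanning_of_superset hsub hX

end Vale.Agent.P068
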