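import Mathlib
import Vale.Agent.Lib.P068.RecursionC

/-!
The uniform matroid obtained from the recursion of length the continuum.
-/

namespace Vale.Agent.P068.CovVersion

open Set
open Cardinal hiding univ
open Vale.Agent.P068 (Off off_swap)

variable {Ω : Type} (Y : TypingC Ω)

lemma Fr_of_off {A B : Set Ω} (hA : Y.Fr A) (h : Off B A 0) : Y.Fr B := by
  rcases Y.cover B with hB | hB | hB
  · exact absurd hA (Y.N_Fr A (Y.N_fin B A h.finite_left h.finite_right hB))
  · exact hB
  · exact absurd hA (Y.P_Fr A (Y.P_fin B A h.finite_left h.finite_right hB))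

theorem exists_matroid {T : Type} [LinearOrder T] [WellFoundedLT T] (task : T → Set Ω × Set Ω)
    (hT : ∀ t : T, #(Iio t) < continuum) (hsurj : Function.Surjective task) :
    ∃ U : Matroid Ω, U.E = univ ∧ (∀ B, U.IsBase B → Y.Fr B) ∧
      (∀ B x y, U.IsBase B → x ∈ B → y ∉ B → U.IsBase (insert y (B \ {x}))) ∧
      (∀ X, U.Indep X ∨ ∃ B, U.IsBase B ∧ B ⊆ X) := by
  obtain ⟨S, hS1, hS2, hS3⟩ := exists_family Y task hT hsurj
  let IsB : Set Ω → Prop := fun B => ∃ A ∈ S, Off B A 0
  have anti : ∀ B B', IsB B → IsB B' → B ⊆ B' → B = B' := by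
    rintro B B' ⟨A, hA, h⟩ ⟨A', hA', h'⟩ hBB
    by_cases hAA : A = A'
    · subst hAA
      have := h.trans h'.symm
      exact Vale.Agent.P068.Off.eq_of_subset (by simpa using this) hBB
    · exfalso
      apply hS2 A hA A' hA' hAA
      refine (h.finite_right.union h'.finite_left).subset ?_
      rintro x ⟨hx, hx'⟩
      by_cases hxB : x ∈ B
      · exact Or.inr ⟨hBB hxB, hx'⟩
      · exact Or.inl ⟨hx, hxB⟩
  have swap : ∀ B x y, IsB B → x ∈ B → y ∉ B → IsB (insert y (B \ {x})) := by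
    rintro B x y ⟨A, hA, h⟩ hx hy
    refine ⟨A, hA, ?_⟩
    simpa using (off_swap hx hy).trans h
  have ht : ∀ I X, I ⊆ X → ∃ B, IsB B ∧ (X ⊆ B ∨ (I ⊆ B ∧ B ⊆ X) ∨ B ⊆ I) := by
    intro I X hIX
    obtain ⟨A, hA, B, hB, h⟩ := hS3 I X hIX
    exact ⟨B, ⟨A, hA, hB⟩, h⟩
  let U : Matroid Ω :=
    { E := univ
      IsBase := IsB
      Indep := fun I => ∃ B, IsB B ∧ I ⊆ B
      indep_iff' := fun I => Iff.rfl
      exists_isBase := by
        obtain ⟨B, hB, _⟩ := ht ∅ ∅ Subset.rfl
        exact ⟨B, hB⟩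
      isBase_exchange := by
        intro B B' hB hB' a ha
        have hne : (B' \ B).Nonempty := by
          by_contra hcon
          rw [not_nonempty_iff_eq_empty, sdiff_eq_empty] at hcon
          have := anti B' B hB' hB hcon
          subst this
          exact ha.2 ha.1
        obtain ⟨b, hb⟩ := hne
        exact ⟨b, hb, swap B a b hB ha.1 hb.2⟩
      maximality := by
        rintro X - I ⟨B', hB', hIB'⟩ hIX
        have case : ∀ J, I ⊆ J → J ⊆ X → (∃ B, IsB B ∧ J ⊆ B ∧ (X ⊆ B → J = X) ∧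
            (¬ X ⊆ B → J = B)) →
            ∃ J, I ⊆ J ∧ Maximal (fun K ↦ (∃ B, IsB B ∧ K ⊆ B) ∧ K ⊆ X) J := by
          rintro J hIJ hJX ⟨B, hB, hJB, h1, h2⟩
          refine ⟨J, hIJ, ⟨⟨B, hB, hJB⟩, hJX⟩, ?_⟩
          rintro K ⟨⟨B'', hB'', hK⟩, hKX⟩ hJK
          by_cases hX : X ⊆ B
          · rw [h1 hX]; exact hKX
          · have hJ := h2 hX
            subst hJ
            have := anti J B'' hB hB'' (hJK.trans hK)
            subst this
            exact hK
        obtain ⟨B, hB, h⟩ := ht I X hIX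
        by_cases hX : X ⊆ B
        · exact case X hIX Subset.rfl ⟨B, hB, hX, fun _ => rfl, fun h => absurd hX h⟩
        · rcases h with h | ⟨h, h'⟩ | h
          · exact absurd h hX
          · exact case B h h' ⟨B, hB, Subset.rfl, fun h => absurd h hX, fun _ => rfl⟩
          · have hBB : B = B' := anti B B' hB hB' (h.trans hIB')
            subst hBB
            have hI : I = B := Subset.antisymm hIB' h
            subst hI
            exact case I Subset.rfl hIX ⟨I, hB, Subset.rfl, fun h => absurd h hX, fun _ => rfl⟩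
      subset_ground := fun B _ => subset_univ B }
  refine ⟨U, rfl, ?_, swap, ?_⟩
  · rintro B ⟨A, hA, h⟩
    exact Fr_of_off Y (hS1 A hA) h
  · intro X
    obtain ⟨B, hB, h⟩ := ht ∅ X (empty_subset X)
    rcases h with h | ⟨_, h⟩ | h
    · exact Or.inl ⟨B, hB, h⟩
    · exact Or.inr ⟨B, hB, h⟩
    · exact Or.inr ⟨B, hB, h.trans (empty_subset X)⟩

end Vale.Agent.P068.CovVersion
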