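import Mathlib
import Vale.Agent.Lib.P068.Types
import Vale.Agent.Lib.P068.RankC
import Vale.Agent.Lib.P068.UniformC
import Vale.Agent.Lib.P068.Wild

/-!
The typing of the subsets of the disjoint union of two copies of the naturals, and the wild
uniform matroid, assuming only the covering property of the category ideal.
-/

namespace Vale.Agent.P068.CovVersion

open Set Cardinal
open Vale.Agent.P068

section

variable {T : Type} [LinearOrder T] [WellFoundedLT T] [NoMaxOrder T] (s : T → Set ℕ)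
  (hs : Function.Surjective s)

/-- The typing. -/
noncomputable def typingC (hcov : CovCat) (hT : ∀ t : T, #(Iio t) < continuum) :
    TypingC (ℕ ⊕ ℕ) where
  N := Neg s hs
  P := Pos s hs
  Fr := Free s hs
  small := fun J => Small (lp J) ∧ Small (rp J)
  cover := by
    intro X
    by_cases h1 : lp X ∈ UF <;> by_cases h2 : rp X ∈ UF
    · exact Or.inr (Or.inr ⟨h1, Or.inl h2⟩)
    · rcases le_or_gt (rk s hs (lp X)) (rk s hs (rp X)) with h | h
      · exact Or.inr (Or.inr ⟨h1, Or.inr h⟩)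
      · exact Or.inr (Or.inl ⟨⟨fun _ => h2, fun _ => h1⟩, h⟩)
    · rcases le_or_gt (rk s hs (lp X)) (rk s hs (rp X)) with h | h
      · exact Or.inl ⟨h1, Or.inr h⟩
      · exact Or.inr (Or.inl ⟨⟨fun h' => absurd h' h1, fun h' => absurd h2 h'⟩, h⟩)
    · exact Or.inl ⟨h1, Or.inl h2⟩
  N_Fr := by
    rintro X ⟨h1, h2⟩ ⟨h3, h4⟩
    rcases h2 with h2 | h2
    · exact h1 (h3.2 h2)
    · exact absurd h4 (not_lt.2 h2)
  P_Fr := by
    rintro X ⟨h1, h2⟩ ⟨h3, h4⟩
    rcases h2 with h2 | h2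
    · exact h3.1 h1 h2
    · exact absurd h4 (not_lt.2 h2)
  N_down := by
    rintro X Z hXZ ⟨h1, h2⟩
    refine ⟨fun h => h1 (Filter.mem_of_superset h (lp_mono hXZ)), ?_⟩
    by_cases h3 : rp X ∈ UF
    · right
      rcases h2 with h2 | h2
      · exact absurd (Filter.mem_of_superset h3 (rp_mono hXZ)) h2
      · exact (rk_mono s hs (lp_mono hXZ) h1).trans (h2.trans (rk_anti s hs (rp_mono hXZ) h3))
    · exact Or.inl h3
  P_up := by
    rintro X Z hXZ ⟨h1, h2⟩
    refine ⟨Filter.mem_of_superset h1 (lp_mono hXZ), ?_⟩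
    by_cases h3 : rp Z ∈ UF
    · exact Or.inl h3
    · right
      rcases h2 with h2 | h2
      · exact absurd (Filter.mem_of_superset h2 (rp_mono hXZ)) h3
      · exact (rk_anti s hs (lp_mono hXZ) h1).trans (h2.trans (rk_mono s hs (rp_mono hXZ) h3))
  N_fin := by
    rintro X Z h1 h2 ⟨h3, h4⟩
    have hl : Small (symmDiff (lp X) (lp Z)) := small_symmDiff_of_finite
      (lp_finite h1) (lp_finite h2)
    have hr : Small (symmDiff (rp X) (rp Z)) := small_symmDiff_of_finite
      (rp_finite h1) (rp_finite h2)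
    unfold Neg
    rw [← UF_congr_iff hl, ← UF_congr_iff hr, ← rk_congr s hs hl, ← rk_congr s hs hr]
    exact ⟨h3, h4⟩
  P_fin := by
    rintro X Z h1 h2 ⟨h3, h4⟩
    have hl : Small (symmDiff (lp X) (lp Z)) := small_symmDiff_of_finite
      (lp_finite h1) (lp_finite h2)
    have hr : Small (symmDiff (rp X) (rp Z)) := small_symmDiff_of_finite
      (rp_finite h1) (rp_finite h2)
    unfold Pos
    rw [← UF_congr_iff hl, ← UF_congr_iff hr, ← rk_congr s hs hl, ← rk_congr s hs hr]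
    exact ⟨h3, h4⟩
  Fr_small := by
    rintro X J ⟨h1, h2⟩ ⟨h3, h4⟩
    have hl : Small (symmDiff (lp X) (lp (symmDiff X J))) := by
      rw [lp_symmDiff, symmDiff_symmDiff_cancel_left]; exact h3
    have hr : Small (symmDiff (rp X) (rp (symmDiff X J))) := by
      rw [rp_symmDiff, symmDiff_symmDiff_cancel_left]; exact h4
    unfold Free
    rw [← UF_congr_iff hl, ← UF_congr_iff hr, ← rk_congr s hs hl, ← rk_congr s hs hr]
    exact ⟨h1, h2⟩
  small_sub := by
    rintro J J' h ⟨h1, h2⟩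
    exact ⟨h1.subset (lp_mono h), h2.subset (rp_mono h)⟩
  split := by
    intro C hC hinf
    have hψ : ∀ n, {x : ℕ ⊕ ℕ | Sum.elim Nat.sqrt Nat.sqrt x ≤ n}.Finite := by
      intro n
      have hfin : {m : ℕ | Nat.sqrt m ≤ n}.Finite := by
        refine (Set.finite_Iio ((n + 1) * (n + 1))).subset ?_
        intro m hm
        have hm' : Nat.sqrt m < n + 1 := Nat.lt_succ_of_le hm
        exact Nat.sqrt_lt.1 hm'
      refine ((hfin.image Sum.inl).union (hfin.image Sum.inr)).subset ?_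
      rintro (x | x) hx
      · exact Or.inl ⟨x, hx, rfl⟩
      · exact Or.inr ⟨x, hx, rfl⟩
    have e : ℕ ≃ ℕ ⊕ ℕ := Equiv.natSumNatEquivNat.symm
    obtain ⟨J, hJ, h⟩ := exists_splitC hcov e (Sum.elim Nat.sqrt Nat.sqrt) hψ C hC hinf
    refine ⟨J, ⟨Small.of_injOn ?_, Small.of_injOn ?_⟩, h⟩
    · intro a ha b hb hab
      have ha' : (Sum.inl a : ℕ ⊕ ℕ) ∈ J := ha
      have hb' : (Sum.inl b : ℕ ⊕ ℕ) ∈ J := hb
      exact Sum.inl_injective (hJ ha' hb' hab)
    · intro a ha b hb hab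
      have ha' : (Sum.inr a : ℕ ⊕ ℕ) ∈ J := ha
      have hb' : (Sum.inr b : ℕ ⊕ ℕ) ∈ J := hb
      exact Sum.inr_injective (hJ ha' hb' hab)
  interp := by
    have hne := HF_neC s hcov hT
    rintro I X ⟨h1, h2⟩ ⟨h3, h4⟩ hIX
    by_cases hr : rp I ∈ UF
    · obtain ⟨B, hB1, hB2, hB3, hB4⟩ := exists_rk_gtC' s hs hne h1 h3 (lp_mono hIX)
        (rk s hs (rp I))
      refine ⟨mk B (rp I), ?_, ?_, ?_⟩
      · exact ⟨⟨fun h => absurd h hB1, fun h => absurd hr h⟩, hB4⟩
      · exact subset_iff_parts.2 ⟨hB2, Subset.rfl⟩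
      · exact subset_iff_parts.2 ⟨hB3, (rp_mono hIX : rp I ⊆ rp X)⟩
    · obtain ⟨B, hB1, hB2, hB3, hB4⟩ := exists_rk_gtC s hs hne h1 h3 (lp_mono hIX)
        (rk s hs (rp I))
      refine ⟨mk B (rp I), ?_, ?_, ?_⟩
      · exact ⟨⟨fun _ => hr, fun _ => hB1⟩, hB4⟩
      · exact subset_iff_parts.2 ⟨hB2, Subset.rfl⟩
      · exact subset_iff_parts.2 ⟨hB3, (rp_mono hIX : rp I ⊆ rp X)⟩
  N_empty := ⟨fun h => UF_not_small (Small.of_finite finite_empty) h,
    Or.inl (fun h => UF_not_small (Small.of_finite finite_empty) h)⟩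
  P_univ := ⟨Filter.univ_mem, Or.inl Filter.univ_mem⟩

end

theorem exists_wildDataC (hcov : CovCat) : Nonempty WildData := by
  classical
  let T : Type := (continuum : Cardinal.{0}).ord.ToType
  have hinf : ℵ₀ ≤ (continuum : Cardinal.{0}) := aleph0_le_continuum
  have : NoMaxOrder T := Cardinal.noMaxOrder hinf
  have hT : ∀ t : T, #(Iio t) < continuum := fun t => mk_Iio_toType_ord_lt t
  have hcardT : #T = continuum := mk_ord_toType _
  have h1 : #(Set ℕ) = #T := by
    rw [hcardT, mk_set, mk_nat]; rfl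
  obtain ⟨e1⟩ := Cardinal.eq.1 h1
  have h2 : #(Set (ℕ ⊕ ℕ) × Set (ℕ ⊕ ℕ)) = #T := by
    rw [hcardT, mk_prod, mk_set, lift_id, mk_sum, mk_nat]
    simp
  obtain ⟨e2⟩ := Cardinal.eq.1 h2
  let s : T → Set ℕ := e1.symm
  have hs : Function.Surjective s := e1.symm.surjective
  obtain ⟨U, hU1, hU2, hU3, hU4⟩ := CovVersion.exists_matroid (typingC s hs hcov hT)
    (fun t => e2.symm t) hT e2.symm.surjective
  exact ⟨{
    T := T
    ord := inferInstance
    wf := inferInstance
    r := rk s hs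
    F := UF
    U := U
    ground := hU1
    free := hU2
    swap := hU3
    unif := hU4
    r_compl := rk_compl s hs
    r_anti := fun X Z h h' => rk_anti s hs h h'
    r_mono := fun X Z h h' => rk_mono s hs h h' }⟩

end Vale.Agent.P068.CovVersion
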